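import Crest.Agent.R92.Sym

/-!
# Fencing, global existence and uniqueness for autonomous differential equations (row 92)
-/

set_option autoImplicit false

namespace Crest.Agent.R92

open Set Filter Topology NNReal

variable {n : ℕ}

lemma hasDerivWithinAt_aval (l : (Fin n → ℝ) × ℝ) {x : ℝ → Fin n → ℝ} {v : Fin n → ℝ}
    {s : Set ℝ} {t : ℝ} (h : HasDerivWithinAt x v s t) :
    HasDerivWithinAt (fun t => aval l (x t)) (l.1 ⬝ᵥ v) s t := by
  unfold aval dotProduct
  refine HasDerivWithinAt.add_const _ ?_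
  refine HasDerivWithinAt.fun_sum fun i _ => ?_
  exact ((hasDerivWithinAt_pi.mp h) i).const_mul _

lemma fence (F : Finset ((Fin n → ℝ) × ℝ)) (x v : ℝ → Fin n → ℝ)
    (hx : ∀ t, 0 ≤ t → HasDerivWithinAt x (v t) (Ici 0) t) (b β T : ℝ)
    (h0 : ∀ l ∈ F, aval l (x 0) ≤ b)
    (hb : ∀ t ∈ Ico 0 T, (∀ l ∈ F, aval l (x t) ≤ b + β * t) →
      ∀ l ∈ F, aval l (x t) = b + β * t → l.1 ⬝ᵥ v t < β) :
    ∀ t ∈ Icc 0 T, ∀ l ∈ F, aval l (x t) ≤ b + β * t := by
  let g : (Fin n → ℝ) × ℝ → ℝ → ℝ := fun l t => aval l (x t) - (b + β * t)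
  have hg : ∀ l t, 0 ≤ t → HasDerivWithinAt (g l) (l.1 ⬝ᵥ v t - β) (Ici 0) t := by
    intro l t ht
    refine (hasDerivWithinAt_aval l (hx t ht)).sub ?_
    simpa using ((hasDerivWithinAt_id t (Ici 0)).const_mul β).const_add b
  have hcl : IsClosed ({t | ∀ l ∈ F, g l t ≤ 0} ∩ Icc 0 T) := by
    have h1 : ContinuousOn (fun t => fun l : F => g l t) (Icc 0 T) :=
      continuousOn_pi.mpr fun l t ht =>
        ((hg l t ht.1).continuousWithinAt).mono fun s hs => hs.1
    have h2 := h1.preimage_isClosed_of_isClosed isClosed_Icc (isClosed_Iic (a := 0))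
    convert h2 using 1
    ext t
    simp only [mem_inter_iff, mem_ofPred_eq, mem_preimage, mem_Iic, Pi.le_def, Subtype.forall,
      Pi.zero_apply, and_comm]
  have key := hcl.Icc_subset_of_forall_mem_nhdsWithin
    (fun l hl => by simpa [g] using h0 l hl) (fun t ht => ?_)
  · intro t ht l hl
    have := key ht l hl
    simp only [g] at this
    linarith
  · have hsub : Ioi t ⊆ Ici (0 : ℝ) := fun s hs => ht.2.1.trans (le_of_lt hs)
    change ∀ᶠ s in 𝓝[>] t, ∀ l ∈ F, g l s ≤ 0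
    rw [eventually_all_finset]
    intro l hl
    have hd := (hg l t ht.2.1).mono hsub
    rcases (ht.1 l hl).eq_or_lt with h | h
    · have h1 : l.1 ⬝ᵥ v t - β < 0 := by
        have := hb t ht.2 (fun l' hl' => by have := ht.1 l' hl'; simp only [g] at this; linarith)
          l hl (by simp only [g] at h; linarith)
        linarith
      rw [hasDerivWithinAt_iff_tendsto_slope' (by simp)] at hd
      filter_upwards [hd.eventually (gt_mem_nhds h1), self_mem_nhdsWithin] with s hs hst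
      rw [slope_def_field, h, sub_zero] at hs
      have h2 : 0 < s - t := sub_pos.mpr hst
      by_contra hcon
      push Not at hcon
      have := div_pos hcon h2
      linarith
    · filter_upwards [hd.continuousWithinAt.eventually (gt_mem_nhds h)] with s hs
      exact hs.le

lemma stays (F : Finset ((Fin n → ℝ) × ℝ)) (g : (Fin n → ℝ) → Fin n → ℝ)
    (hg : ∀ y, (∀ l ∈ F, aval l y ≤ 1 / 2) → ∀ l ∈ F, (∀ l' ∈ F, aval l' y ≤ aval l y) →
      0 ≤ aval l y → l.1 ⬝ᵥ g y ≤ 0)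
    (x : ℝ → Fin n → ℝ) (hx : ∀ t, 0 ≤ t → HasDerivWithinAt x (g (x t)) (Ici 0) t)
    (h0 : ∀ l ∈ F, aval l (x 0) ≤ 0) : ∀ t, 0 ≤ t → ∀ l ∈ F, aval l (x t) ≤ 0 := by
  intro T hT l hl
  refine le_of_forall_pos_le_add fun ε hε => ?_
  set β : ℝ := min ε (1 / 2) / (T + 1) with hβ
  have hm : 0 < min ε (1 / 2) := lt_min hε (by norm_num)
  have hβ0 : 0 < β := div_pos hm (by linarith)
  have hβT : ∀ t, t ≤ T → β * t ≤ min ε (1 / 2) := by
    intro t ht
    have h1 : β * (T + 1) = min ε (1 / 2) := by rw [hβ]; field_simp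
    nlinarith
  have key := fence F x (fun t => g (x t)) hx 0 β T h0 (fun t ht h1 l hl h2 => ?_) T
    ⟨hT, le_rfl⟩ l hl
  · have := hβT T le_rfl
    have := min_le_left ε (1 / 2)
    linarith
  · have h3 := hβT t ht.2.le
    have h4 := min_le_right ε (1 / 2)
    have h5 : 0 ≤ β * t := mul_nonneg hβ0.le ht.1
    refine lt_of_le_of_lt (hg (x t) (fun l' hl' => ?_) l hl (fun l' hl' => ?_) ?_) hβ0
    · linarith [h1 l' hl']
    · linarith [h1 l' hl']
    · linarith

lemma unique_forward {E : Type*} [NormedAddCommGroup E] [NormedSpace ℝ E] (g : E → E) (s : Set E)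
    (K : ℝ≥0) (hK : LipschitzOnWith K g s) (x y : ℝ → E) (T : ℝ)
    (hx : ∀ t ∈ Icc 0 T, HasDerivWithinAt x (g (x t)) (Icc 0 T) t)
    (hy : ∀ t ∈ Icc 0 T, HasDerivWithinAt y (g (y t)) (Icc 0 T) t)
    (hxs : ∀ t ∈ Icc 0 T, x t ∈ s) (hys : ∀ t ∈ Icc 0 T, y t ∈ s) (h0 : x 0 = y 0) :
    EqOn x y (Icc 0 T) := by
  have hmem : ∀ t ∈ Ico 0 T, Icc 0 T ∈ 𝓝[Ici t] t := fun t ht =>
    mem_of_superset (Icc_mem_nhdsGE ht.2) (Icc_subset_Icc_left ht.1)
  exact ODE_solution_unique_of_mem_Icc_right (v := fun _ => g) (s := fun _ => s)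
    (fun _ _ => hK) (fun t ht => (hx t ht).continuousWithinAt)
    (fun t ht => (hx t (Ico_subset_Icc_self ht)).mono_of_mem_nhdsWithin (hmem t ht))
    (fun t ht => hxs t (Ico_subset_Icc_self ht))
    (fun t ht => (hy t ht).continuousWithinAt)
    (fun t ht => (hy t (Ico_subset_Icc_self ht)).mono_of_mem_nhdsWithin (hmem t ht))
    (fun t ht => hys t (Ico_subset_Icc_self ht)) h0

lemma exists_global {E : Type*} [NormedAddCommGroup E] [NormedSpace ℝ E] [CompleteSpace E]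
    (g : E → E) (K L : ℝ≥0) (hK : LipschitzWith K g) (hL : ∀ y, ‖g y‖ ≤ L) (x₀ : E) :
    ∃ x : ℝ → E, x 0 = x₀ ∧ ∀ t, 0 ≤ t → HasDerivWithinAt x (g (x t)) (Ici 0) t := by
  have h1 : ∀ m : ℕ, ∃ α : ℝ → E, α 0 = x₀ ∧
      ∀ t ∈ Icc (0 : ℝ) m, HasDerivWithinAt α (g (α t)) (Icc (0 : ℝ) m) t := by
    intro m
    have hpl : IsPicardLindelof (fun _ => g)
        (⟨0, le_rfl, Nat.cast_nonneg m⟩ : Icc (0 : ℝ) m) x₀ (L * m) 0 L K :=
      IsPicardLindelof.of_time_independent (fun y _ => hL y) hK.lipschitzOnWith (by simp)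
    exact hpl.exists_eq_forall_mem_Icc_hasDerivWithinAt₀
  choose α hα0 hα using h1
  have huniq : ∀ m m' : ℕ, m ≤ m' → EqOn (α m) (α m') (Icc (0 : ℝ) m) := by
    intro m m' h
    have hsub : Icc (0 : ℝ) m ⊆ Icc (0 : ℝ) m' := Icc_subset_Icc_right (Nat.cast_le.mpr h)
    exact unique_forward g univ K hK.lipschitzOnWith _ _ m (hα m)
      (fun t ht => (hα m' t (hsub ht)).mono hsub) (fun _ _ => mem_univ _) (fun _ _ => mem_univ _)
      (by rw [hα0, hα0])
  refine ⟨fun t => α ⌈t⌉₊ t, hα0 _, fun t ht => ?_⟩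
  set m : ℕ := ⌈t⌉₊ + 1 with hm
  have htm : t < m := by
    have := Nat.le_ceil t
    rw [hm]; push_cast; linarith
  have heq : ∀ s ∈ Icc (0 : ℝ) m, α ⌈s⌉₊ s = α m s := fun s hs =>
    huniq _ _ (Nat.ceil_le.mpr hs.2) ⟨hs.1, Nat.le_ceil s⟩
  have h2 := (hα m t ⟨ht, htm.le⟩).congr (f₁ := fun t => α ⌈t⌉₊ t) heq (heq t ⟨ht, htm.le⟩)
  rw [← heq t ⟨ht, htm.le⟩] at h2
  refine h2.mono_of_mem_nhdsWithin ?_
  have : Icc (0 : ℝ) m = Ici 0 ∩ Iic (m : ℝ) := rfl
  rw [this]
  exact inter_mem_nhdsWithin _ (Iic_mem_nhds htm)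

/-- A `C¹` field agrees on a given ball with a bounded globally Lipschitz field. -/
lemma exists_truncation (f : (Fin n → ℝ) → Fin n → ℝ) (hf : ContDiff ℝ 1 f) (b : ℝ) (hb : 0 ≤ b) :
    ∃ (g : (Fin n → ℝ) → Fin n → ℝ) (K L : ℝ≥0), LipschitzWith K g ∧ (∀ y, ‖g y‖ ≤ L) ∧
      (∀ y, (∀ i, |y i| ≤ b) → g y = f y) ∧ LipschitzOnWith K f {y | ∀ i, |y i| ≤ b} := by
  let c : (Fin n → ℝ) → Fin n → ℝ := fun y i => max (-b) (min b (y i))
  have hc : LipschitzWith 1 c := by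
    refine LipschitzWith.of_dist_le_mul fun y z => ?_
    rw [NNReal.coe_one, one_mul, dist_pi_le_iff dist_nonneg]
    intro i
    have h1 : LipschitzWith 1 fun s : ℝ => max (-b) (min b s) :=
      (LipschitzWith.id.const_min b).const_max (-b)
    have h2 := h1.dist_le_mul (y i) (z i)
    rw [NNReal.coe_one, one_mul] at h2
    exact h2.trans (dist_le_pi_dist y z i)
  have hcm : ∀ y, c y ∈ Metric.closedBall (0 : Fin n → ℝ) b := by
    intro y
    rw [mem_closedBall_zero_iff, pi_norm_le_iff_of_nonneg hb]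
    intro i
    rw [Real.norm_eq_abs, abs_le]
    exact ⟨le_max_left _ _, max_le (by linarith) (min_le_left _ _)⟩
  have hcomp : IsCompact (Metric.closedBall (0 : Fin n → ℝ) b) := isCompact_closedBall _ _
  obtain ⟨K, hK⟩ := (hf.locallyLipschitz.locallyLipschitzOn).exists_lipschitzOnWith_of_compact hcomp
  obtain ⟨L, hL⟩ := hcomp.exists_bound_of_continuousOn hf.continuous.continuousOn
  refine ⟨f ∘ c, K, ⟨max L 0, le_max_right _ _⟩, ?_, fun y => (hL _ (hcm y)).trans (le_max_left _ _),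
    fun y hy => ?_, hK.mono fun y hy => ?_⟩
  · have := hK.comp (s := univ) hc.lipschitzOnWith fun y _ => hcm y
    rw [mul_one] at this
    exact lipschitzOnWith_univ.mp this
  · have : c y = y := by
      funext i
      have := abs_le.mp (hy i)
      simp only [c]
      rw [min_eq_right this.2, max_eq_right this.1]
    simp [this]
  · rw [mem_closedBall_zero_iff, pi_norm_le_iff_of_nonneg hb]
    exact hy

end Crest.Agent.R92
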