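import Crest.Agent.R92.Sym
import Crest.Prelude.Def_MassAction

/-!
# Compatible slopes decrease along weakly reversible mass-action fields (row 92)
-/

set_option autoImplicit false

namespace Crest.Agent.R92

open Real Crest.AnalysisR.MassAction

variable {d : ℕ}

lemma path_bound (R : Network d) (a y : Fin d → ℕ)
    (h : Relation.ReflTransGen (fun a b => (a, b) ∈ R) a y) :
    ∃ L : ℕ, ∀ (φ : (Fin d → ℕ) → ℝ) (D : ℝ), 0 ≤ D →
      (∀ s ∈ R, φ y < φ s.1 → φ s.1 - φ s.2 ≤ D) → φ a - φ y ≤ L * D := by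
  induction h using Relation.ReflTransGen.head_induction_on with
  | refl => exact ⟨0, fun φ D _ _ => by simp⟩
  | @head a b hab _ ih =>
    obtain ⟨L, hL⟩ := ih
    refine ⟨L + 1, fun φ D hD hs => ?_⟩
    have h1 := hL φ D hD hs
    have hL0 : (0 : ℝ) ≤ L := Nat.cast_nonneg L
    push_cast
    by_cases h2 : φ y < φ a
    · have h3 := hs (a, b) hab h2
      simp only at h3
      linarith
    · push Not at h2
      nlinarith

lemma monomial_eq_exp (x : Fin d → ℝ) (hx : ∀ i, 0 < x i) (y : Fin d → ℕ) :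
    ∏ i, x i ^ y i = exp ((fun i => (y i : ℝ)) ⬝ᵥ fun i => log (x i)) := by
  unfold dotProduct
  rw [exp_sum]
  refine Finset.prod_congr rfl fun i _ => ?_
  rw [← log_pow, exp_log (pow_pos (hx i) _)]

lemma dot_field (R : Network d) (k : (Fin d → ℕ) × (Fin d → ℕ) → ℝ) (w x : Fin d → ℝ) :
    w ⬝ᵥ field R k x = ∑ r ∈ R, (k r * ∏ i, x i ^ r.1 i) * (w ⬝ᵥ reactionVector r) := by
  unfold field
  rw [dotProduct_sum]
  refine Finset.sum_congr rfl fun r _ => ?_
  rw [dotProduct_smul, smul_eq_mul]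

theorem kinetics (R : Network d) (hR : IsWeaklyReversible R)
    (k : (Fin d → ℕ) × (Fin d → ℕ) → ℝ) (hk : ∀ r ∈ R, 0 < k r) :
    ∃ (A : Finset (Fin d → ℝ)) (M : ℝ), ∀ w x : Fin d → ℝ, (∀ i, 0 < x i) → Compat A M w x →
      w ⬝ᵥ field R k x ≤
        -(1 / 3) * ∑ r ∈ R, (k r * ∏ i, x i ^ r.1 i) * |w ⬝ᵥ reactionVector r| := by
  classical
  have hL : ∀ r : (Fin d → ℕ) × (Fin d → ℕ), ∃ L : ℕ, r ∈ R →
      ∀ (φ : (Fin d → ℕ) → ℝ) (D : ℝ), 0 ≤ D →
        (∀ s ∈ R, φ r.1 < φ s.1 → φ s.1 - φ s.2 ≤ D) → φ r.2 - φ r.1 ≤ L * D := by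
    intro r
    by_cases hr : r ∈ R
    · obtain ⟨L, h⟩ := path_bound R r.2 r.1 (hR r hr)
      exact ⟨L, fun _ => h⟩
    · exact ⟨0, fun h => absurd h hr⟩
  choose L hL using hL
  set P : ℝ := ∑ r ∈ R, k r * L r with hP
  set Q : ℝ := ∑ s ∈ R, (k s)⁻¹ with hQ
  have hP0 : 0 ≤ P := Finset.sum_nonneg fun r hr => mul_nonneg (hk r hr).le (Nat.cast_nonneg _)
  have hQ0 : 0 ≤ Q := Finset.sum_nonneg fun r hr => inv_nonneg.mpr (hk r hr).le
  refine ⟨(R ×ˢ R).image fun sr => (fun i => (sr.1.1 i : ℝ)) - fun i => (sr.2.1 i : ℝ),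
    2 * P * Q, fun w x hx hc => ?_⟩
  set M : ℝ := 2 * P * Q with hM
  let φ : (Fin d → ℕ) → ℝ := fun y => (fun i => (y i : ℝ)) ⬝ᵥ w
  let mo : (Fin d → ℕ) → ℝ := fun y => ∏ i, x i ^ y i
  have hmo : ∀ y, 0 < mo y := fun y => Finset.prod_pos fun i _ => pow_pos (hx i) _
  have hg : ∀ r : (Fin d → ℕ) × (Fin d → ℕ), w ⬝ᵥ reactionVector r = φ r.2 - φ r.1 := by
    intro r
    simp only [φ]
    rw [← sub_dotProduct, dotProduct_comm]
    rfl
  have hcomp : ∀ s ∈ R, ∀ r ∈ R, φ r.1 < φ s.1 → mo r.1 * exp M ≤ mo s.1 := by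
    intro s hs r hr hlt
    have h1 := hc _ (Finset.mem_image.mpr ⟨(s, r), Finset.mem_product.mpr ⟨hs, hr⟩, rfl⟩)
      (by rw [sub_dotProduct]; exact sub_pos.mpr hlt)
    rw [sub_dotProduct] at h1
    simp only [mo]
    rw [monomial_eq_exp x hx, monomial_eq_exp x hx, ← exp_add, exp_le_exp]
    linarith
  set Dn : ℝ := ∑ s ∈ R, (k s * mo s.1) * max (φ s.1 - φ s.2) 0 with hDn
  set Up : ℝ := ∑ s ∈ R, (k s * mo s.1) * max (φ s.2 - φ s.1) 0 with hUp
  have hterm : ∀ s ∈ R, 0 ≤ (k s * mo s.1) * max (φ s.1 - φ s.2) 0 := fun s hs =>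
    mul_nonneg (mul_pos (hk s hs) (hmo _)).le (le_max_right _ _)
  have hDn0 : 0 ≤ Dn := Finset.sum_nonneg hterm
  have hEM := exp_pos M
  have hup : ∀ r ∈ R, (k r * mo r.1) * max (φ r.2 - φ r.1) 0 ≤ k r * L r * (Q * Dn / exp M) := by
    intro r hr
    have hmr := hmo r.1
    have hD0 : 0 ≤ Q * Dn / exp M / mo r.1 := by positivity
    have h1 := hL r hr φ (Q * Dn / exp M / mo r.1) hD0 fun s hs hlt => by
      have h2 : (k s * mo s.1) * max (φ s.1 - φ s.2) 0 ≤ Dn :=
        Finset.single_le_sum (f := fun s => (k s * mo s.1) * max (φ s.1 - φ s.2) 0) hterm hs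
      have h3 := hcomp s hs r hr hlt
      have h4 : (k s)⁻¹ ≤ Q :=
        Finset.single_le_sum (f := fun s => (k s)⁻¹) (fun r hr => inv_nonneg.mpr (hk r hr).le) hs
      have hks := hk s hs
      have h5 : 0 ≤ max (φ s.1 - φ s.2) 0 := le_max_right _ _
      refine (le_max_left _ 0).trans ?_
      rw [div_div, le_div_iff₀ (by positivity)]
      have h6 : max (φ s.1 - φ s.2) 0 * (exp M * mo r.1) ≤ max (φ s.1 - φ s.2) 0 * mo s.1 :=
        mul_le_mul_of_nonneg_left (by linarith) h5
      have h7 : max (φ s.1 - φ s.2) 0 * mo s.1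
          = (k s)⁻¹ * ((k s * mo s.1) * max (φ s.1 - φ s.2) 0) := by field_simp
      have h8 : (k s)⁻¹ * ((k s * mo s.1) * max (φ s.1 - φ s.2) 0) ≤ Q * Dn :=
        mul_le_mul h4 h2 (hterm s hs) hQ0
      linarith
    have h2 : max (φ r.2 - φ r.1) 0 ≤ L r * (Q * Dn / exp M / mo r.1) :=
      max_le h1 (mul_nonneg (Nat.cast_nonneg _) hD0)
    have h3 := mul_le_mul_of_nonneg_left h2 (mul_pos (hk r hr) hmr).le
    have h4 : k r * mo r.1 * (L r * (Q * Dn / exp M / mo r.1)) = k r * L r * (Q * Dn / exp M) := by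
      field_simp
    linarith
  have hUp2 : Up ≤ Dn / 2 := by
    have h1 : Up ≤ P * (Q * Dn / exp M) := by
      rw [hP, Finset.sum_mul]
      exact Finset.sum_le_sum hup
    have h2 : M ≤ exp M := by have := add_one_le_exp M; linarith
    have h3 : P * (Q * Dn / exp M) ≤ Dn / 2 := by
      rw [← mul_div_assoc, div_le_iff₀ hEM]
      nlinarith
    linarith
  have e1 : w ⬝ᵥ field R k x = Up - Dn := by
    rw [dot_field, hUp, hDn, ← Finset.sum_sub_distrib]
    refine Finset.sum_congr rfl fun r _ => ?_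
    rw [hg, ← mul_sub]
    congr 1
    rcases le_total (φ r.1) (φ r.2) with h | h
    · rw [max_eq_left (by linarith), max_eq_right (by linarith)]; ring
    · rw [max_eq_right (by linarith), max_eq_left (by linarith)]; ring
  have e2 : ∑ r ∈ R, (k r * ∏ i, x i ^ r.1 i) * |w ⬝ᵥ reactionVector r| = Up + Dn := by
    rw [hUp, hDn, ← Finset.sum_add_distrib]
    refine Finset.sum_congr rfl fun r _ => ?_
    rw [hg, ← mul_add]
    congr 1
    rcases le_total (φ r.1) (φ r.2) with h | h
    · rw [max_eq_left (by linarith), max_eq_right (by linarith), abs_of_nonneg (by linarith)]; ring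
    · rw [max_eq_right (by linarith), max_eq_left (by linarith), abs_of_nonpos (by linarith)]; ring
  rw [e1, e2]
  linarith

/-- a vector orthogonal to all reaction vectors is orthogonal to the stoichiometric subspace -/
lemma dot_eq_zero_of_mem (R : Network d) (w : Fin d → ℝ)
    (hw : ∀ r ∈ R, w ⬝ᵥ reactionVector r = 0) (v : Fin d → ℝ) (hv : v ∈ stoichSubspace R) :
    w ⬝ᵥ v = 0 := by
  unfold stoichSubspace at hv
  induction hv using Submodule.span_induction with
  | mem v hv =>
    obtain ⟨r, hr, rfl⟩ := hv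
    exact hw r hr
  | zero => exact dotProduct_zero _
  | add u v _ _ hu hv => rw [dotProduct_add, hu, hv, add_zero]
  | smul a v _ hv => rw [dotProduct_smul, hv, smul_zero]

lemma field_mem (R : Network d) (k : (Fin d → ℕ) × (Fin d → ℕ) → ℝ) (x : Fin d → ℝ) :
    field R k x ∈ stoichSubspace R := by
  unfold field stoichSubspace
  refine Submodule.sum_mem _ fun r hr => Submodule.smul_mem _ _ (Submodule.subset_span ?_)
  exact ⟨r, hr, rfl⟩

lemma field_contDiff (R : Network d) (k : (Fin d → ℕ) × (Fin d → ℕ) → ℝ) :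
    ContDiff ℝ 1 (field R k) := by
  unfold field
  refine ContDiff.sum fun r _ => ?_
  have h : ContDiff ℝ 1 fun x : Fin d → ℝ => k r * ∏ i, x i ^ r.1 i :=
    contDiff_const.mul (contDiff_prod fun i _ => (contDiff_apply ℝ ℝ i).pow _)
  exact h.smul_const _

/-- one-variable estimate behind the properness of `log` modulo the orthogonal complement -/
lemma proper_one (c C : ℝ) (hc : 0 < c) (hC : 0 ≤ C) :
    ∃ B : ℝ, 0 ≤ B ∧ (∀ s w : ℝ, 0 < s → |w - log s| ≤ C → -B ≤ w * (s - c)) ∧
      ∀ T : ℝ, ∃ r : ℝ, ∀ s w : ℝ, 0 < s → |w - log s| ≤ C → w * (s - c) ≤ T → |log s| ≤ r := by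
  set C' : ℝ := C + |log c| with hC'
  have hC'0 : 0 ≤ C' := by have := abs_nonneg (log c); linarith
  have key : ∀ s w : ℝ, 0 < s → |w - log s| ≤ C →
      |s - c| * (|log s - log c| - C') ≤ w * (s - c) := by
    intro s w hs hw
    have h1 : (log s - log c) * (s - c) = |s - c| * |log s - log c| := by
      rcases le_total s c with h | h
      · have := log_le_log hs h
        rw [abs_of_nonpos (by linarith), abs_of_nonpos (by linarith)]; ring
      · have := log_le_log hc h
        rw [abs_of_nonneg (by linarith), abs_of_nonneg (by linarith)]; ring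
    have h2 : -(|s - c| * C') ≤ (w - log s + log c) * (s - c) := by
      refine le_trans ?_ (neg_abs_le _)
      rw [abs_mul, neg_le_neg_iff, mul_comm]
      refine mul_le_mul_of_nonneg_left ((abs_add_le _ _).trans ?_) (abs_nonneg _)
      linarith
    nlinarith
  refine ⟨(c * exp C' + c) * C', by positivity, fun s w hs hw => ?_, fun T => ?_⟩
  · have h1 := key s w hs hw
    have h0 := abs_nonneg (s - c)
    by_cases h : |log s - log c| ≤ C'
    · have h2 : s ≤ c * exp C' := by
        have h3 : log s ≤ log c + C' := by linarith [(abs_le.mp h).2]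
        rw [log_le_iff_le_exp hs, exp_add, exp_log hc] at h3
        exact h3
      have h3 : |s - c| ≤ c * exp C' + c := by
        have := exp_pos C'
        rw [abs_le]; constructor <;> nlinarith
      have h4 := abs_nonneg (log s - log c)
      nlinarith
    · push Not at h
      have : 0 ≤ (c * exp C' + c) * C' := by positivity
      nlinarith
  · refine ⟨|log c| + 1 + C' + 2 * |T| / c, fun s w hs hw hT => ?_⟩
    have h1 := key s w hs hw
    have hT0 : 0 ≤ 2 * |T| / c := by positivity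
    have h2 : |log s - log c| ≤ 1 + C' + 2 * |T| / c := by
      by_contra hcon
      push Not at hcon
      have h3 : c / 2 ≤ |s - c| := by
        have he : (2 : ℝ) ≤ exp 1 := by have := add_one_le_exp (1 : ℝ); linarith
        have h4 : 1 ≤ |log s - log c| := by linarith
        rw [le_abs] at h4 ⊢
        rcases h4 with h4 | h4
        · left
          have h5 : log c + 1 ≤ log s := by linarith
          rw [le_log_iff_exp_le hs, exp_add, exp_log hc] at h5
          nlinarith
        · right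
          have h5 : log s + 1 ≤ log c := by linarith
          rw [le_log_iff_exp_le hc, exp_add, exp_log hs] at h5
          nlinarith
      have h4 : c / 2 * (1 + 2 * |T| / c) ≤ |s - c| * (|log s - log c| - C') :=
        mul_le_mul h3 (by linarith) (by linarith) (abs_nonneg _)
      have h5 : c / 2 * (1 + 2 * |T| / c) = c / 2 + |T| := by field_simp
      have h6 := le_abs_self T
      linarith
    have h3 : |log s| ≤ |log s - log c| + |log c| := by
      have := abs_add_le (log s - log c) (log c)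
      simpa using this
    linarith

theorem proper_box (c : Fin d → ℝ) (hc : ∀ i, 0 < c i) (C : ℝ) :
    ∃ r : ℝ, InBox r c ∧ ∀ w x : Fin d → ℝ, (∀ i, 0 < x i) → (∀ i, |w i - log (x i)| ≤ C) →
      w ⬝ᵥ (x - c) = 0 → InBox r x := by
  classical
  choose B hB0 hB1 hB2 using fun i => proper_one (c i) |C| (hc i) (abs_nonneg C)
  choose r hr using fun i => hB2 i (∑ j, B j)
  have key : ∀ w x : Fin d → ℝ, (∀ i, 0 < x i) → (∀ i, |w i - log (x i)| ≤ |C|) →
      w ⬝ᵥ (x - c) = 0 → InBox (∑ i, |r i|) x := by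
    intro w x hx hw h0 i
    have h1 : w i * (x i - c i) + B i ≤ ∑ j, (w j * (x j - c j) + B j) :=
      Finset.single_le_sum (f := fun j => w j * (x j - c j) + B j)
        (fun j _ => by linarith [hB1 j (x j) (w j) (hx j) (hw j)]) (Finset.mem_univ i)
    rw [Finset.sum_add_distrib] at h1
    have h2 : ∑ j, w j * (x j - c j) = 0 := h0
    have h3 := hr i (x i) (w i) (hx i) (hw i) (by linarith [hB0 i])
    have h4 : |r i| ≤ ∑ i, |r i| :=
      Finset.single_le_sum (f := fun j => |r j|) (fun j _ => abs_nonneg _) (Finset.mem_univ i)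
    have h5 := le_abs_self (r i)
    rw [abs_le] at h3
    exact ⟨(le_log_iff_exp_le (hx i)).mp (by linarith), (log_le_iff_le_exp (hx i)).mp (by linarith)⟩
  refine ⟨∑ i, |r i|, key (fun i => log (c i)) c hc (fun i => by simp) (by simp),
    fun w x hx hw h0 => key w x hx (fun i => (hw i).trans (le_abs_self C)) h0⟩

end Crest.Agent.R92
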