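import Crest.Agent.R92.Kinetics
import Crest.Agent.R92.Flow

/-!
# Permanence of weakly reversible mass-action systems (row 92)
-/

set_option autoImplicit false

namespace Crest.Agent.R92

open Set Filter Topology NNReal Real Crest.AnalysisR.MassAction

variable {d : ℕ}

lemma InBox.pos {r : ℝ} {x : Fin d → ℝ} (h : InBox r x) (i : Fin d) : 0 < x i :=
  (exp_pos _).trans_le (h i).1

lemma InBox.abs_le {r : ℝ} {x : Fin d → ℝ} (h : InBox r x) (i : Fin d) : |x i| ≤ exp r := by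
  rw [abs_of_pos (h.pos i)]; exact (h i).2

lemma class_invariant (R : Network d) (k : (Fin d → ℕ) × (Fin d → ℕ) → ℝ)
    (x : ℝ → Fin d → ℝ) (hx : IsForwardSolution (field R k) x) (t : ℝ) (ht : 0 ≤ t) :
    x t - x 0 ∈ stoichSubspace R := by
  by_contra hcon
  obtain ⟨φ, hφ, hS⟩ := Submodule.exists_le_ker_of_notMem hcon
  let ψ : (Fin d → ℝ) →L[ℝ] ℝ := LinearMap.toContinuousLinearMap φ
  have hd : ∀ s, 0 ≤ s → HasDerivWithinAt (fun s => ψ (x s)) 0 (Ici 0) s := by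
    intro s hs
    have h1 := ψ.hasFDerivAt.comp_hasDerivWithinAt s (hx s hs)
    have h2 : ψ (field R k (x s)) = 0 := hS (field_mem R k (x s))
    rw [h2] at h1
    exact h1
  have h3 := constant_of_has_deriv_right_zero (f := fun s => ψ (x s)) (a := 0) (b := t)
    (fun s hs => (hd s hs.1).continuousWithinAt.mono fun u hu => hu.1)
    (fun s hs => (hd s hs.1).mono fun u hu => hs.1.trans hu) t ⟨ht, le_rfl⟩
  apply hφ
  rw [map_sub]
  exact sub_eq_zero.mpr h3

lemma shift_solution {v : (Fin d → ℝ) → Fin d → ℝ} {x : ℝ → Fin d → ℝ}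
    (hx : IsForwardSolution v x) (T : ℝ) (hT : 0 ≤ T) :
    IsForwardSolution v fun s => x (T + s) := by
  intro s hs
  have h1 : HasDerivWithinAt (fun s => T + s) 1 (Ici 0) s :=
    (hasDerivWithinAt_id s (Ici 0)).const_add T
  have h2 := (hx (T + s) (by linarith)).scomp s h1 (fun u hu => by
    simp only [mem_Ici] at hu ⊢; linarith)
  rw [one_smul] at h2
  exact h2

/-- invariant polytopes around any box -/
theorem trap (hd : 1 ≤ d) (R : Network d) (hR : IsWeaklyReversible R)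
    (k : (Fin d → ℕ) × (Fin d → ℕ) → ℝ) (hk : ∀ r ∈ R, 0 < k r) (r : ℝ) :
    ∃ (F : Finset ((Fin d → ℝ) × ℝ)) (ρ : ℝ), (∀ x, InBox r x → ∀ l ∈ F, aval l x ≤ 0) ∧
      (∀ x, (∀ l ∈ F, aval l x ≤ 0) → InBox ρ x) ∧
      ∀ g : (Fin d → ℝ) → Fin d → ℝ, (∀ y, InBox ρ y → g y = field R k y) →
        ∀ x : ℝ → Fin d → ℝ, IsForwardSolution g x → (∀ l ∈ F, aval l (x 0) ≤ 0) →
          ∀ t, 0 ≤ t → ∀ l ∈ F, aval l (x t) ≤ 0 := by
  obtain ⟨A, M, hAM⟩ := kinetics R hR k hk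
  obtain ⟨F, h1, ρ, h2, h3⟩ := barrier hd A M r
  refine ⟨F, ρ, h1, fun x hx => h2 x fun l hl => (hx l hl).trans (by norm_num),
    fun g hg x hx h0 => stays F g (fun y hy l hl hmax hval => ?_) x hx h0⟩
  have hb := h2 y hy
  rw [hg y hb]
  refine (hAM l.1 y hb.pos (h3 y hy l hl hmax hval)).trans ?_
  have : 0 ≤ ∑ r ∈ R, (k r * ∏ i, y i ^ r.1 i) * |l.1 ⬝ᵥ reactionVector r| :=
    Finset.sum_nonneg fun r hr => mul_nonneg
      (mul_pos (hk r hr) (Finset.prod_pos fun i _ => pow_pos (hb.pos i) _)).le (abs_nonneg _)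
  linarith

/-- every solution staying in some box and in the class of `c` visits a fixed box -/
theorem visits (R : Network d) (hR : IsWeaklyReversible R)
    (k : (Fin d → ℕ) × (Fin d → ℕ) → ℝ) (hk : ∀ r ∈ R, 0 < k r)
    (c : Fin d → ℝ) (hc : ∀ i, 0 < c i) :
    ∃ r : ℝ, InBox r c ∧ ∀ (ρ : ℝ) (x : ℝ → Fin d → ℝ), IsForwardSolution (field R k) x →
      (∀ t, 0 ≤ t → InBox ρ (x t)) → (∀ t, 0 ≤ t → x t - c ∈ stoichSubspace R) →
      ∃ T, 0 ≤ T ∧ InBox r (x T) := by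
  classical
  obtain ⟨A, M, hAM⟩ := kinetics R hR k hk
  obtain ⟨C, hC⟩ := entropy A M
  obtain ⟨r, hr1, hr2⟩ := proper_box c hc C
  refine ⟨r, hr1, fun ρ x hx hbox hS => ?_⟩
  obtain ⟨F, hne, hF⟩ := hC ρ
  have hδ : ∀ l : (Fin d → ℝ) × ℝ, ∃ δ : ℝ, 0 < δ ∧ ((∃ s ∈ R, l.1 ⬝ᵥ reactionVector s ≠ 0) →
      ∀ y, InBox ρ y → Compat A M l.1 y → l.1 ⬝ᵥ field R k y ≤ -δ) := by
    intro l
    by_cases h : ∃ s ∈ R, l.1 ⬝ᵥ reactionVector s ≠ 0
    · obtain ⟨s, hs, h0⟩ := h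
      refine ⟨1 / 3 * ((k s * ∏ i, exp (-ρ) ^ s.1 i) * |l.1 ⬝ᵥ reactionVector s|), ?_,
        fun _ y hy hcomp => (hAM l.1 y hy.pos hcomp).trans ?_⟩
      · exact mul_pos (by norm_num) (mul_pos (mul_pos (hk s hs)
          (Finset.prod_pos fun i _ => pow_pos (exp_pos _) _)) (abs_pos.mpr h0))
      · have h1 : (k s * ∏ i, y i ^ s.1 i) * |l.1 ⬝ᵥ reactionVector s|
            ≤ ∑ r ∈ R, (k r * ∏ i, y i ^ r.1 i) * |l.1 ⬝ᵥ reactionVector r| :=
          Finset.single_le_sum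
            (f := fun r => (k r * ∏ i, y i ^ r.1 i) * |l.1 ⬝ᵥ reactionVector r|)
            (fun r hr => mul_nonneg (mul_pos (hk r hr)
              (Finset.prod_pos fun i _ => pow_pos (hy.pos i) _)).le (abs_nonneg _)) hs
        have h2 : ∏ i, exp (-ρ) ^ s.1 i ≤ ∏ i, y i ^ s.1 i :=
          Finset.prod_le_prod (fun i _ => (pow_pos (exp_pos _) _).le)
            fun i _ => pow_le_pow_left₀ (exp_pos _).le (hy i).1 _
        have h3 : (k s * ∏ i, exp (-ρ) ^ s.1 i) * |l.1 ⬝ᵥ reactionVector s|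
            ≤ (k s * ∏ i, y i ^ s.1 i) * |l.1 ⬝ᵥ reactionVector s| :=
          mul_le_mul_of_nonneg_right (mul_le_mul_of_nonneg_left h2 (hk s hs).le) (abs_nonneg _)
        linarith
    · exact ⟨1, one_pos, fun h' => absurd h' h⟩
  choose δ hδ0 hδ using hδ
  obtain ⟨l0, hl0, hmin⟩ := Finset.exists_min_image F δ hne
  by_contra hcon
  push Not at hcon
  set b : ℝ := ∑ l ∈ F, |aval l (x 0)| with hb
  set lo : ℝ := (∑ i, |l0.1 i| * exp ρ) - l0.2 with hlo
  have hlow : ∀ y, InBox ρ y → -lo ≤ aval l0 y := by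
    intro y hy
    have h1 : -(∑ i, |l0.1 i| * exp ρ) ≤ l0.1 ⬝ᵥ y := by
      unfold dotProduct
      rw [← Finset.sum_neg_distrib]
      refine Finset.sum_le_sum fun i _ => le_trans ?_ (neg_abs_le _)
      rw [abs_mul, neg_le_neg_iff]
      exact mul_le_mul_of_nonneg_left (hy.abs_le i) (abs_nonneg _)
    unfold aval
    linarith
  have hd0 := hδ0 l0
  set T : ℝ := 2 * (|b + lo| + 1) / δ l0 with hT
  have hT0 : 0 ≤ T := by positivity
  have key := fence F x (fun t => field R k (x t)) hx b (-(δ l0 / 2)) T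
    (fun l hl => (le_abs_self _).trans (Finset.single_le_sum (f := fun l => |aval l (x 0)|)
      (fun l _ => abs_nonneg _) hl))
    (fun t ht h1 l hl h2 => ?_) T ⟨hT0, le_rfl⟩ l0 hl0
  · have h1 := hlow (x T) (hbox T hT0)
    have h2 : δ l0 / 2 * T = |b + lo| + 1 := by rw [hT]; field_simp
    have h3 := le_abs_self (b + lo)
    linarith
  · have hy := hbox t ht.1
    obtain ⟨h3, h4⟩ := hF (x t) hy l hl fun l' hl' => by rw [h2]; exact h1 l' hl'
    have h5 : ∃ s ∈ R, l.1 ⬝ᵥ reactionVector s ≠ 0 := by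
      by_contra h6
      push Not at h6
      exact hcon t ht.1 (hr2 l.1 (x t) hy.pos h4 (dot_eq_zero_of_mem R l.1 h6 _ (hS t ht.1)))
    have h6 := hδ l h5 (x t) hy h3
    have h7 := hmin l hl
    linarith

theorem permanence
    (d : ℕ) (hd : 1 ≤ d) (R : Network d) (hR : IsWeaklyReversible R)
    (k : (Fin d → ℕ) × (Fin d → ℕ) → ℝ) (hk : ∀ r ∈ R, 0 < k r)
    (c : Fin d → ℝ) (hc : ∀ i, 0 < c i) :
    ∃ K : Set (Fin d → ℝ), K ⊆ positiveClass R c ∧ K.Nonempty ∧ IsCompact K ∧ Convex ℝ K ∧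
      (∀ x : ℝ → (Fin d → ℝ), IsForwardSolution (field R k) x → x 0 ∈ K →
        ∀ t : ℝ, 0 ≤ t → x t ∈ K) ∧
      (∀ x₀ ∈ positiveClass R c,
        (∃ x : ℝ → (Fin d → ℝ), IsForwardSolution (field R k) x ∧ x 0 = x₀) ∧
        (∀ x x' : ℝ → (Fin d → ℝ), IsForwardSolution (field R k) x →
          IsForwardSolution (field R k) x' → x 0 = x₀ → x' 0 = x₀ →
          ∀ t : ℝ, 0 ≤ t → x t = x' t) ∧
        (∀ x : ℝ → (Fin d → ℝ), IsForwardSolution (field R k) x → x 0 = x₀ →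
          (∀ t : ℝ, 0 ≤ t → ∀ i, 0 < x t i) ∧
          ∃ T : ℝ, 0 ≤ T ∧ ∀ t : ℝ, T ≤ t → x t ∈ K)) := by
  obtain ⟨r, hrc, hvis⟩ := visits R hR k hk c hc
  obtain ⟨F, ρ, hF1, hF2, hF3⟩ := trap hd R hR k hk r
  have hclass : ∀ x : ℝ → (Fin d → ℝ), IsForwardSolution (field R k) x →
      x 0 - c ∈ stoichSubspace R → ∀ t, 0 ≤ t → x t - c ∈ stoichSubspace R := by
    intro x hx h0 t ht
    have := (stoichSubspace R).add_mem (class_invariant R k x hx t ht) h0
    simpa using this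
  let K : Set (Fin d → ℝ) := {x | (∀ l ∈ F, aval l x ≤ 0) ∧ x - c ∈ stoichSubspace R}
  have hinv : ∀ x : ℝ → (Fin d → ℝ), IsForwardSolution (field R k) x → x 0 ∈ K →
      ∀ t : ℝ, 0 ≤ t → x t ∈ K := fun x hx h0 t ht =>
    ⟨hF3 _ (fun _ _ => rfl) x hx h0.1 t ht, hclass x hx h0.2 t ht⟩
  refine ⟨K, fun x hx => ⟨(hF2 x hx.1).pos, hx.2⟩, ⟨c, hF1 c hrc, by simp⟩, ?_, ?_, hinv, ?_⟩
  · refine (isCompact_univ_pi fun _ : Fin d =>
      isCompact_Icc (a := exp (-ρ)) (b := exp ρ)).of_isClosed_subset ?_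
      fun x hx i _ => hF2 x hx.1 i
    have h1 : IsClosed {x : Fin d → ℝ | ∀ l ∈ F, aval l x ≤ 0} := by
      have : {x : Fin d → ℝ | ∀ l ∈ F, aval l x ≤ 0} = ⋂ l ∈ F, {x | aval l x ≤ 0} := by
        ext x; simp
      rw [this]
      refine isClosed_biInter fun l _ => isClosed_le ?_ continuous_const
      unfold aval dotProduct
      fun_prop
    have h2 : IsClosed {x : Fin d → ℝ | x - c ∈ stoichSubspace R} :=
      (Submodule.closed_of_finiteDimensional (stoichSubspace R)).preimage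
        (f := fun x => x - c) (by fun_prop)
    exact h1.inter h2
  · intro x hx y hy a b ha hb hab
    refine ⟨fun l hl => ?_, ?_⟩
    · have h1 := hx.1 l hl
      have h2 := hy.1 l hl
      have h3 : aval l (a • x + b • y) = a * aval l x + b * aval l y := by
        unfold aval
        rw [dotProduct_add, dotProduct_smul, dotProduct_smul, smul_eq_mul, smul_eq_mul]
        linear_combination (-l.2) * hab
      rw [h3]
      nlinarith
    · have h3 : a • x + b • y - c = a • (x - c) + b • (y - c) := by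
        funext i
        simp only [Pi.add_apply, Pi.sub_apply, Pi.smul_apply, smul_eq_mul]
        linear_combination (c i) * hab
      rw [h3]
      exact Submodule.add_mem _ (Submodule.smul_mem _ _ hx.2) (Submodule.smul_mem _ _ hy.2)
  · intro x₀ hx₀
    obtain ⟨r₀, hr₀, _⟩ := proper_box x₀ hx₀.1 0
    obtain ⟨G, σ, hG1, hG2, hG3⟩ := trap hd R hR k hk r₀
    obtain ⟨g, Kg, Lg, hg1, hg2, hg3, hg4⟩ :=
      exists_truncation (field R k) (field_contDiff R k) (exp σ) (exp_pos _).le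
    have hstay : ∀ x : ℝ → (Fin d → ℝ), IsForwardSolution (field R k) x → x 0 = x₀ →
        ∀ t, 0 ≤ t → InBox σ (x t) := fun x hx h0 t ht =>
      hG2 _ (hG3 _ (fun _ _ => rfl) x hx (by rw [h0]; exact hG1 _ hr₀) t ht)
    refine ⟨?_, ?_, ?_⟩
    · obtain ⟨x, h0, hx⟩ := exists_global g Kg Lg hg1 hg2 x₀
      refine ⟨x, fun t ht => ?_, h0⟩
      have h1 := hG2 _ (hG3 g (fun y hy => hg3 y hy.abs_le) x hx
        (by rw [h0]; exact hG1 _ hr₀) t ht)
      rw [← hg3 _ h1.abs_le]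
      exact hx t ht
    · intro x x' hx hx' h0 h0' t ht
      exact unique_forward (field R k) _ Kg hg4 x x' t
        (fun s hs => (hx s hs.1).mono fun u hu => hu.1)
        (fun s hs => (hx' s hs.1).mono fun u hu => hu.1)
        (fun s hs => (hstay x hx h0 s hs.1).abs_le)
        (fun s hs => (hstay x' hx' h0' s hs.1).abs_le) (by rw [h0, h0']) ⟨ht, le_rfl⟩
    · intro x hx h0
      have hS := hclass x hx (by rw [h0]; exact hx₀.2)
      refine ⟨fun t ht => (hstay x hx h0 t ht).pos, ?_⟩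
      obtain ⟨T, hT, hTb⟩ := hvis σ x hx (hstay x hx h0) hS
      refine ⟨T, hT, fun t ht => ?_⟩
      have := hinv _ (shift_solution hx T hT)
        ⟨by simpa using hF1 _ hTb, by simpa using hS T hT⟩ (t - T) (by linarith)
      simpa using this

end Crest.Agent.R92
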