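import Mathlib

/-!
# Trees of slopes (row 92)

For a finite set `A` of vectors and a number `M`, a slope `w` is *compatible* with a positive point
`x` when `a ⬝ w > 0` forces `a ⬝ log x ≥ M` for every `a ∈ A`.  We build finite families of affine
functions whose maximisers at decreasingly sorted points have compatible slopes.
-/

set_option autoImplicit false

namespace Crest.Agent.R92

open Real

variable {n : ℕ}

/-- `w` is compatible with the positive point `x`. -/
def Compat (A : Finset (Fin n → ℝ)) (M : ℝ) (w x : Fin n → ℝ) : Prop :=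
  ∀ a ∈ A, 0 < a ⬝ᵥ w → M ≤ a ⬝ᵥ (fun i => Real.log (x i))

/-- value of an affine function -/
def aval (l : (Fin n → ℝ) × ℝ) (x : Fin n → ℝ) : ℝ := l.1 ⬝ᵥ x + l.2

/-- every functional of `B` vanishes at `p` or is large there -/
def Sep (B : Finset (Fin n → ℝ)) (r : ℝ) (p : Fin n → ℝ) : Prop :=
  ∀ a ∈ B, a ⬝ᵥ p = 0 ∨ r ≤ |a ⬝ᵥ p|

/-- the part of `p ⬝ x` over the indices `≤ k` -/
noncomputable def headP (k : Fin n) (p x : Fin n → ℝ) : ℝ := ∑ i, if i ≤ k then p i * x i else 0

/-- the sum of the coordinates with index `> k` -/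
noncomputable def tailS (k : Fin n) (x : Fin n → ℝ) : ℝ := ∑ i, if i ≤ k then 0 else x i

lemma dot_le_head_tail (k : Fin n) (p w x : Fin n → ℝ) (q : ℝ) (hx : ∀ i, 0 ≤ x i)
    (h1 : ∀ i, i ≤ k → w i = p i) (h2 : ∀ i, k < i → w i ≤ q) :
    w ⬝ᵥ x ≤ headP k p x + q * tailS k x := by
  unfold headP tailS dotProduct
  rw [Finset.mul_sum, ← Finset.sum_add_distrib]
  refine Finset.sum_le_sum fun i _ => ?_
  by_cases hi : i ≤ k
  · simp [hi, h1 i hi]
  · simp only [hi, if_false, zero_add]
    exact mul_le_mul_of_nonneg_right (h2 i (not_le.mp hi)) (hx i)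

lemma dot_eq_head_tail (k : Fin n) (p w x : Fin n → ℝ) (q : ℝ)
    (h1 : ∀ i, i ≤ k → w i = p i) (h2 : ∀ i, k < i → w i = q) :
    w ⬝ᵥ x = headP k p x + q * tailS k x := by
  unfold headP tailS dotProduct
  rw [Finset.mul_sum, ← Finset.sum_add_distrib]
  refine Finset.sum_congr rfl fun i _ => ?_
  by_cases hi : i ≤ k
  · simp [hi, h1 i hi]
  · simp [hi, h2 i (not_le.mp hi)]

lemma le_tailS (k j : Fin n) (hj : k < j) (x : Fin n → ℝ) (hx : ∀ i, 0 ≤ x i) :
    x j ≤ tailS k x := by
  unfold tailS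
  have h := Finset.single_le_sum (f := fun i => if i ≤ k then 0 else x i)
    (s := Finset.univ) (fun i _ => by
      by_cases hi : i ≤ k
      · simp [hi]
      · simp [hi, hx i]) (Finset.mem_univ j)
  simpa [not_le.mpr hj] using h

lemma tailS_le (k j : Fin n) (hj : j.val = k.val + 1) (x : Fin n → ℝ) (hx : ∀ i, 0 ≤ x i)
    (ha : Antitone x) : tailS k x ≤ n * x j := by
  unfold tailS
  have h : ∑ i : Fin n, (if i ≤ k then 0 else x i) ≤ ∑ _i : Fin n, x j := by
    refine Finset.sum_le_sum fun i _ => ?_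
    by_cases hi : i ≤ k
    · simp [hi, hx j]
    · simp only [hi, if_false]
      apply ha
      rw [Fin.le_def] at hi ⊢
      omega
  simpa using h

/-- The family attached to a node with prefix `p` (indices `≤ k`) and scale `Δ`. -/
structure Fam (A : Finset (Fin n → ℝ)) (M Λ N Δ : ℝ) (k : Fin n) (p : Fin n → ℝ)
    (F : Finset ((Fin n → ℝ) × ℝ)) : Prop where
  pre : ∀ l ∈ F, ∀ i, i ≤ k → l.1 i = p i
  anti : ∀ l ∈ F, ∀ i j, k ≤ i → i ≤ j → l.1 j ≤ l.1 i
  eta_le : ∀ l ∈ F, l.2 ≤ exp (p k - Δ) / 2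
  zero : ∃ l ∈ F, (∀ i, k ≤ i → l.1 i = p k) ∧ 0 ≤ l.2
  good : ∀ x : Fin n → ℝ, (∀ i, 0 < x i) → Antitone x → (∀ i, -N ≤ log (x i)) →
    (∀ i, i ≤ k → |log (x i) - p i| ≤ Δ) →
    ∀ l ∈ F, (∀ l' ∈ F, aval l' x ≤ aval l x) →
      Compat A M l.1 x ∧ ∀ i, |l.1 i - log (x i)| ≤ Λ * Δ

/-- admissible next slope with its extra scale -/
def Adm (Z : Set ℝ) (g q s : ℝ) : Prop :=
  (s = g ∧ q ∈ Z) ∨ (s = 0 ∧ ∀ z ∈ Z, g ≤ |q - z|)

lemma Adm.next {Z : Set ℝ} {g q s : ℝ} (hg : 1 ≤ g)
    (hsep : ∀ z ∈ Z, ∀ z' ∈ Z, z = z' ∨ 2 * g + 1 ≤ |z - z'|) (h : Adm Z g q s) :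
    ∃ q' s', Adm Z g q' s' ∧ q' ≤ q - s - 1 ∧ q - q' ≤ g + 1 ∧ q - s ≤ q' + 1 + s' := by
  rcases h with ⟨hs, hq⟩ | ⟨hs, hq⟩
  · refine ⟨q - g - 1, 0, Or.inr ⟨rfl, fun z hz => ?_⟩, by linarith, by linarith, by linarith⟩
    rcases hsep q hq z hz with h | h
    · rw [← h, le_abs]; right; linarith
    · rw [le_abs] at h ⊢
      rcases h with h | h
      · left; linarith
      · right; linarith
  · by_cases h1 : ∀ z ∈ Z, g ≤ |q - 1 - z|
    · exact ⟨q - 1, 0, Or.inr ⟨rfl, h1⟩, by linarith, by linarith, by linarith⟩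
    · push Not at h1
      obtain ⟨z, hz, hz'⟩ := h1
      have h2 := hq z hz
      rw [abs_lt] at hz'
      rw [le_abs] at h2
      refine ⟨z, g, Or.inl ⟨rfl, hz⟩, ?_, by linarith, by linarith⟩
      rcases h2 with h2 | h2
      · linarith
      · linarith

lemma Adm.s_nonneg {Z : Set ℝ} {g q s : ℝ} (hg : 1 ≤ g) (h : Adm Z g q s) : 0 ≤ s ∧ s ≤ g := by
  rcases h with ⟨hs, _⟩ | ⟨hs, _⟩ <;> constructor <;> linarith

/-- The family attached to all admissible slopes below `q` at the index `k'` following `k`. -/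
structure Chain (A : Finset (Fin n → ℝ)) (M Λ N Δ g : ℝ) (k k' : Fin n) (p : Fin n → ℝ)
    (q s : ℝ) (H : Finset ((Fin n → ℝ) × ℝ)) : Prop where
  pre : ∀ l ∈ H, ∀ i, i ≤ k → l.1 i = p i
  top : ∀ l ∈ H, l.1 k' ≤ q
  anti : ∀ l ∈ H, ∀ i j, k' ≤ i → i ≤ j → l.1 j ≤ l.1 i
  eta_le : ∀ l ∈ H, l.2 ≤ 2 * (g + 1) * exp (q - s)
  zero : ∃ l ∈ H, (∀ i, k' ≤ i → l.1 i = q) ∧ 0 ≤ l.2
  good : ∀ x : Fin n → ℝ, (∀ i, 0 < x i) → Antitone x → (∀ i, -N ≤ log (x i)) →
    (∀ i, i ≤ k → |log (x i) - p i| ≤ Δ) → log (x k') ≤ q + (Δ + s) →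
    ∀ l ∈ H, (∀ l' ∈ H, aval l' x ≤ aval l x) →
      Compat A M l.1 x ∧ ∀ i, |l.1 i - log (x i)| ≤ Λ * (Δ + g)

lemma lt_iff_succ_le {k k' : Fin n} (hk : k'.val = k.val + 1) (i : Fin n) : k < i ↔ k' ≤ i := by
  rw [Fin.lt_def, Fin.le_def]; omega

lemma le_succ_iff {k k' : Fin n} (hk : k'.val = k.val + 1) (i : Fin n) :
    i ≤ k' ↔ i ≤ k ∨ i = k' := by
  rw [Fin.le_def, Fin.le_def, Fin.ext_iff]; omega

lemma update_pre {k k' : Fin n} (hk : k'.val = k.val + 1) (p : Fin n → ℝ) (q : ℝ) (i : Fin n)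
    (hi : i ≤ k) : Function.update p k' q i = p i := by
  apply Function.update_of_ne
  intro h
  rw [Fin.le_def] at hi
  rw [Fin.ext_iff] at h
  omega

/-- what a child family gives once the coordinate `k'` is located -/
lemma child_good {A : Finset (Fin n → ℝ)} {M Λ N Δ g : ℝ} {k k' : Fin n}
    (hk : k'.val = k.val + 1) {p : Fin n → ℝ} {q s : ℝ} (hs0 : 0 ≤ s) (hsg : s ≤ g) (hΛ : 0 ≤ Λ)
    {F : Finset ((Fin n → ℝ) × ℝ)} (hF : Fam A M Λ N (Δ + s) k' (Function.update p k' q) F)
    (x : Fin n → ℝ) (hx : ∀ i, 0 < x i) (ha : Antitone x) (hN : ∀ i, -N ≤ log (x i))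
    (hp : ∀ i, i ≤ k → |log (x i) - p i| ≤ Δ) (hup : log (x k') ≤ q + (Δ + s))
    (hlow : q - (Δ + s) ≤ log (x k'))
    (l : (Fin n → ℝ) × ℝ) (hl : l ∈ F) (hmax : ∀ l' ∈ F, aval l' x ≤ aval l x) :
    Compat A M l.1 x ∧ ∀ i, |l.1 i - log (x i)| ≤ Λ * (Δ + g) := by
  have h := hF.good x hx ha hN (fun i hi => ?_) l hl hmax
  · refine ⟨h.1, fun i => (h.2 i).trans ?_⟩
    exact mul_le_mul_of_nonneg_left (by linarith) hΛ
  · rcases (le_succ_iff hk i).mp hi with h | h
    · rw [update_pre hk p q i h]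
      exact (hp i h).trans (by linarith)
    · subst h
      rw [Function.update_self, abs_le]
      constructor <;> linarith

theorem chain {A : Finset (Fin n → ℝ)} {M Λ N Δ g : ℝ} {k k' : Fin n}
    (hk : k'.val = k.val + 1) {p : Fin n → ℝ} {Z : Set ℝ} (hg : 1 ≤ g) (hΛ : 0 ≤ Λ)
    (hΔ : 0 ≤ Δ) (hΔ1 : 4 * (g + 1) ≤ exp Δ) (hΔ2 : 2 * (n : ℝ) ≤ exp Δ)
    (hsep : ∀ z ∈ Z, ∀ z' ∈ Z, z = z' ∨ 2 * g + 1 ≤ |z - z'|)
    (hchild : ∀ q s, Adm Z g q s → ∃ F, Fam A M Λ N (Δ + s) k' (Function.update p k' q) F)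
    (m : ℕ) : ∀ q s, Adm Z g q s → q ≤ -N + m → ∃ H, Chain A M Λ N Δ g k k' p q s H := by
  classical
  have hkk : k < k' := by rw [Fin.lt_def]; omega
  -- basic facts on a child family
  have basic : ∀ q s F, Adm Z g q s → Fam A M Λ N (Δ + s) k' (Function.update p k' q) F →
      (∀ l ∈ F, ∀ i, i ≤ k → l.1 i = p i) ∧ (∀ l ∈ F, l.1 k' = q) ∧
      (∀ l ∈ F, l.2 ≤ exp (q - s) / 2) ∧
      (∃ l ∈ F, (∀ i, k' ≤ i → l.1 i = q) ∧ 0 ≤ l.2) := by
    intro q s F hadm hF
    refine ⟨fun l hl i hi => ?_, fun l hl => ?_, fun l hl => ?_, ?_⟩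
    · rw [hF.pre l hl i (hi.trans hkk.le), update_pre hk p q i hi]
    · rw [hF.pre l hl k' le_rfl, Function.update_self]
    · have h1 := hF.eta_le l hl
      rw [Function.update_self] at h1
      have h2 : exp (q - (Δ + s)) ≤ exp (q - s) := exp_le_exp.mpr (by linarith)
      linarith
    · obtain ⟨l, hl, h1, h2⟩ := hF.zero
      refine ⟨l, hl, fun i hi => ?_, h2⟩
      rw [h1 i hi, Function.update_self]
  induction m with
  | zero =>
    intro q s hadm hq
    obtain ⟨F, hF⟩ := hchild q s hadm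
    obtain ⟨b1, b2, b3, b4⟩ := basic q s F hadm hF
    obtain ⟨hs0, hsg⟩ := hadm.s_nonneg hg
    refine ⟨F, b1, fun l hl => (b2 l hl).le, hF.anti, fun l hl => ?_, b4, ?_⟩
    · have := b3 l hl
      have h2 := exp_pos (q - s)
      nlinarith
    · intro x hx ha hN hp hup l hl hmax
      refine child_good hk hs0 hsg hΛ hF x hx ha hN hp hup ?_ l hl hmax
      have := hN k'
      simp only [Nat.cast_zero, add_zero] at hq
      linarith
  | succ m ih =>
    intro q s hadm hq
    obtain ⟨F, hF⟩ := hchild q s hadm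
    obtain ⟨b1, b2, b3, b4⟩ := basic q s F hadm hF
    obtain ⟨hs0, hsg⟩ := hadm.s_nonneg hg
    obtain ⟨q', s', hadm', n1, n2, n3⟩ := hadm.next hg hsep
    obtain ⟨hs0', hsg'⟩ := hadm'.s_nonneg hg
    obtain ⟨H', hH'⟩ := ih q' s' hadm' (by push_cast at hq; linarith)
    set κ : ℝ := (q - q') * exp (q - s) with hκ
    have hgap : 1 ≤ q - q' := by linarith
    have hE := exp_pos (q - s)
    have hκ0 : 0 ≤ κ := by positivity
    refine ⟨F ∪ H'.image (fun l => (l.1, l.2 + κ)), ?_, ?_, ?_, ?_, ?_, ?_⟩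
    · intro l hl i hi
      rcases Finset.mem_union.mp hl with h | h
      · exact b1 l h i hi
      · obtain ⟨l0, h0, rfl⟩ := Finset.mem_image.mp h
        exact hH'.pre l0 h0 i hi
    · intro l hl
      rcases Finset.mem_union.mp hl with h | h
      · exact (b2 l h).le
      · obtain ⟨l0, h0, rfl⟩ := Finset.mem_image.mp h
        exact (hH'.top l0 h0).trans (by linarith)
    · intro l hl i j hi hij
      rcases Finset.mem_union.mp hl with h | h
      · exact hF.anti l h i j hi hij
      · obtain ⟨l0, h0, rfl⟩ := Finset.mem_image.mp h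
        exact hH'.anti l0 h0 i j hi hij
    · intro l hl
      rcases Finset.mem_union.mp hl with h | h
      · have := b3 l h
        nlinarith
      · obtain ⟨l0, h0, rfl⟩ := Finset.mem_image.mp h
        have h1 := hH'.eta_le l0 h0
        have h2 : exp (q' - s') * 2 ≤ exp (q - s) := by
          have h3 : exp (q' - s') * exp 1 ≤ exp (q - s) := by
            rw [← exp_add]; exact exp_le_exp.mpr (by linarith)
          have h4 : (2 : ℝ) ≤ exp 1 := by have := add_one_le_exp (1 : ℝ); linarith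
          have h5 := exp_pos (q' - s')
          nlinarith
        have h3 : κ ≤ (g + 1) * exp (q - s) := mul_le_mul_of_nonneg_right n2 hE.le
        show l0.2 + κ ≤ _
        nlinarith
    · obtain ⟨l, hl, h⟩ := b4
      exact ⟨l, Finset.mem_union_left _ hl, h⟩
    · intro x hx ha hN hp hup l hl hmax
      have hx0 : ∀ i, 0 ≤ x i := fun i => (hx i).le
      rcases Finset.mem_union.mp hl with h | h
      · refine child_good hk hs0 hsg hΛ hF x hx ha hN hp hup ?_ l h
          (fun l' hl' => hmax l' (Finset.mem_union_left _ hl'))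
        obtain ⟨l0, h0, z1, z2⟩ := hH'.zero
        have e1 := hmax (l0.1, l0.2 + κ)
          (Finset.mem_union_right _ (Finset.mem_image_of_mem _ h0))
        have e2 := dot_eq_head_tail k p l0.1 x q' (hH'.pre l0 h0)
          (fun i hi => z1 i ((lt_iff_succ_le hk i).mp hi))
        have e3 := dot_le_head_tail k p l.1 x q hx0 (b1 l h)
          (fun i hi => (hF.anti l h k' i le_rfl ((lt_iff_succ_le hk i).mp hi)).trans (b2 l h).le)
        have e4 := b3 l h
        simp only [aval] at e1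
        have e5 : (q - q') * (exp (q - s) - tailS k x) ≤ exp (q - s) / 2 := by
          rw [mul_sub]; nlinarith
        have e6 : exp (q - s) / 2 ≤ tailS k x := by
          by_contra hcon
          push Not at hcon
          nlinarith
        have e7 := tailS_le k k' hk x hx0 ha
        have e8 : exp (q - (Δ + s)) ≤ x k' := by
          have e9 : exp (q - (Δ + s)) * exp Δ = exp (q - s) := by
            rw [← exp_add]; congr 1; ring
          have e10 := exp_pos Δ
          have e11 := hx k'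
          by_contra hcon
          push Not at hcon
          nlinarith
        exact (le_log_iff_exp_le (hx k')).mpr e8
      · obtain ⟨l0, h0, rfl⟩ := Finset.mem_image.mp h
        refine hH'.good x hx ha hN hp ?_ l0 h0 (fun l' hl' => ?_)
        · obtain ⟨l1, h1, z1, z2⟩ := b4
          have e1 := hmax l1 (Finset.mem_union_left _ h1)
          have e2 := dot_eq_head_tail k p l1.1 x q (b1 l1 h1)
            (fun i hi => z1 i ((lt_iff_succ_le hk i).mp hi))
          have e3 := dot_le_head_tail k p l0.1 x q' hx0 (hH'.pre l0 h0)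
            (fun i hi => (hH'.anti l0 h0 k' i le_rfl ((lt_iff_succ_le hk i).mp hi)).trans
              (hH'.top l0 h0))
          have e4 := hH'.eta_le l0 h0
          simp only [aval] at e1
          have e5 : (q - q') * (tailS k x - exp (q - s)) ≤ 2 * (g + 1) * exp (q' - s') := by
            rw [mul_sub]; nlinarith
          have hE' := exp_pos (q' - s')
          have e6 : tailS k x ≤ exp (q - s) + 2 * (g + 1) * exp (q' - s') := by
            by_contra hcon
            push Not at hcon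
            have : 0 < 2 * (g + 1) * exp (q' - s') := by positivity
            nlinarith
          have e7 := le_tailS k k' hkk x hx0
          have e8 : exp (q - s) ≤ exp (q' + s') * 3 := by
            have h3 : exp (q - s) ≤ exp (q' + s') * exp 1 := by
              rw [← exp_add]; exact exp_le_exp.mpr (by linarith)
            have h4 : exp 1 ≤ (3 : ℝ) := by have := exp_one_lt_d9; linarith
            have h5 := exp_pos (q' + s')
            nlinarith
          have e9 : exp (q' - s') ≤ exp (q' + s') := exp_le_exp.mpr (by linarith)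
          have e10 : x k' ≤ exp (q' + (Δ + s')) := by
            have e11 : exp (q' + (Δ + s')) = exp (q' + s') * exp Δ := by
              rw [← exp_add]; congr 1; ring
            have h5 := exp_pos (q' + s')
            rw [e11]
            nlinarith
          exact (log_le_iff_le_exp (hx k')).mpr e10
        · have := hmax (l'.1, l'.2 + κ) (Finset.mem_union_right _ (Finset.mem_image_of_mem _ hl'))
          simp only [aval] at this ⊢
          linarith

lemma exists_pos_le_abs (B : Finset (Fin n → ℝ)) (j : Fin n) :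
    ∃ c : ℝ, 0 < c ∧ ∀ a ∈ B, a j ≠ 0 → c ≤ |a j| := by
  classical
  induction B using Finset.induction_on with
  | empty => exact ⟨1, one_pos, by simp⟩
  | insert b B _ ih =>
    obtain ⟨c, hc, h⟩ := ih
    by_cases hb : b j = 0
    · refine ⟨c, hc, fun a ha h0 => ?_⟩
      rcases Finset.mem_insert.mp ha with rfl | ha
      · exact absurd hb h0
      · exact h a ha h0
    · refine ⟨min c |b j|, lt_min hc (abs_pos.mpr hb), fun a ha h0 => ?_⟩
      rcases Finset.mem_insert.mp ha with rfl | ha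
      · exact min_le_right _ _
      · exact (min_le_left _ _).trans (h a ha h0)

lemma dot_update (a p : Fin n → ℝ) (j : Fin n) (q : ℝ) :
    a ⬝ᵥ Function.update p j q = a ⬝ᵥ p + a j * (q - p j) := by
  have : Function.update p j q = p + Pi.single j (q - p j) := by
    funext i
    by_cases h : i = j
    · subst h; simp
    · simp [Function.update_of_ne h, Pi.single_eq_of_ne h]
  rw [this, dotProduct_add, dotProduct_single]

theorem node (A : Finset (Fin n → ℝ)) (M : ℝ) (m : ℕ) : ∀ k : Fin n, k.val + m + 1 = n →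
    ∃ (B : Finset (Fin n → ℝ)) (C Λ Δ₀ : ℝ), 0 ≤ C ∧ 1 ≤ Λ ∧ 1 ≤ Δ₀ ∧
      ∀ Δ, Δ₀ ≤ Δ → ∀ (N : ℝ) (p : Fin n → ℝ), Sep B (C * Δ) p → ∃ F, Fam A M Λ N Δ k p F := by
  classical
  induction m with
  | zero =>
    intro k hk
    have hall : ∀ i : Fin n, i ≤ k := fun i => by rw [Fin.le_def]; have := i.2; omega
    have hC0 : 0 ≤ ∑ a ∈ A, ∑ i, |a i| :=
      Finset.sum_nonneg fun a _ => Finset.sum_nonneg fun i _ => abs_nonneg _
    refine ⟨A, (∑ a ∈ A, ∑ i, |a i|) + 1, 1, max M 1, by linarith, le_rfl, le_max_right _ _,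
      fun Δ hΔ N p hsep => ⟨{(p, 0)}, ?_, ?_, ?_, ?_, ?_⟩⟩
    · intro l hl i _
      rw [Finset.mem_singleton.mp hl]
    · intro l hl i j hi hij
      rw [le_antisymm (hall i) hi, le_antisymm (hall j) (hi.trans hij)]
    · intro l hl
      rw [Finset.mem_singleton.mp hl]
      positivity
    · refine ⟨(p, 0), Finset.mem_singleton_self _, fun i hi => ?_, le_rfl⟩
      rw [le_antisymm (hall i) hi]
    · intro x hx ha hN hp l hl _
      rw [Finset.mem_singleton.mp hl]
      have hΔM : M ≤ Δ := (le_max_left _ _).trans hΔ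
      have hΔ1 : 1 ≤ Δ := (le_max_right _ _).trans hΔ
      refine ⟨fun a haA hpos => ?_, fun i => ?_⟩
      · simp only at hpos
        have h1 : ((∑ a ∈ A, ∑ i, |a i|) + 1) * Δ ≤ a ⬝ᵥ p := by
          rcases hsep a haA with h | h
          · linarith
          · rwa [abs_of_pos hpos] at h
        have h2 : ∑ i, |a i| ≤ ∑ a ∈ A, ∑ i, |a i| :=
          Finset.single_le_sum (f := fun a : Fin n → ℝ => ∑ i, |a i|)
            (fun a _ => Finset.sum_nonneg fun i _ => abs_nonneg _) haA
        have h3 : a ⬝ᵥ p - a ⬝ᵥ (fun i => log (x i)) ≤ (∑ i, |a i|) * Δ := by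
          unfold dotProduct
          rw [← Finset.sum_sub_distrib, Finset.sum_mul]
          refine Finset.sum_le_sum fun i _ => ?_
          rw [← mul_sub]
          refine (le_abs_self _).trans ?_
          rw [abs_mul, abs_sub_comm]
          exact mul_le_mul_of_nonneg_left (hp i (hall i)) (abs_nonneg _)
        nlinarith
      · rw [one_mul, abs_sub_comm]
        exact hp i (hall i)
  | succ m ih =>
    intro k hk
    let k' : Fin n := ⟨k.val + 1, by omega⟩
    have hk' : k'.val = k.val + 1 := rfl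
    have hkk : k < k' := by rw [Fin.lt_def]; omega
    obtain ⟨B', C', Λ', Δ₀', hC', hΛ', hΔ₀', H⟩ := ih k' (by simp only [k']; omega)
    obtain ⟨c, hc, hcB⟩ := exists_pos_le_abs B' k'
    set D : ℝ := C' / c + 2 with hD
    have hD2 : 2 ≤ D := by have : 0 ≤ C' / c := by positivity
                           linarith
    have hcD : C' ≤ c * D := by
      have : c * D = C' + 2 * c := by rw [hD]; field_simp
      linarith
    let L : Finset (Fin n → ℝ) := insert (Pi.single k 1)
      ((B'.filter fun a => a k' ≠ 0).image fun a => Pi.single k' 1 - (a k')⁻¹ • a)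
    let B : Finset (Fin n → ℝ) := B' ∪ (L ×ˢ L).image fun ll => ll.1 - ll.2
    set C : ℝ := C' * (D + 1) + C' * (D + 1) / c + 2 * D + 1 with hC
    have hC1 : 0 ≤ C' * (D + 1) := by positivity
    have hC2 : 0 ≤ C' * (D + 1) / c := by positivity
    refine ⟨B, C, Λ' * (D + 1), Δ₀' + 8 * D + 8 + 2 * n, by linarith, by nlinarith,
      by have : (0 : ℝ) ≤ n := Nat.cast_nonneg n
         linarith, fun Δ hΔ N p hsep => ?_⟩
    have hn0 : (0 : ℝ) ≤ n := Nat.cast_nonneg n
    have hΔ1 : 1 ≤ Δ := by linarith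
    set g : ℝ := D * Δ with hg
    have hg1 : 1 ≤ g := by nlinarith
    have hexp1 : 4 * (g + 1) ≤ exp Δ := by
      have h1 := quadratic_le_exp_of_nonneg (x := Δ) (by linarith)
      have h2 : 8 * D + 8 ≤ Δ := by linarith
      nlinarith
    have hexp2 : 2 * (n : ℝ) ≤ exp Δ := by
      have := add_one_le_exp Δ
      linarith
    let Z : Set ℝ := {z | ∃ l ∈ L, z = l ⬝ᵥ p}
    have hZsep : ∀ z ∈ Z, ∀ z' ∈ Z, z = z' ∨ C * Δ ≤ |z - z'| := by
      rintro z ⟨l, hl, rfl⟩ z' ⟨l', hl', rfl⟩
      have hmem : l - l' ∈ B := Finset.mem_union_right _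
        (Finset.mem_image.mpr ⟨(l, l'), Finset.mem_product.mpr ⟨hl, hl'⟩, rfl⟩)
      rcases hsep _ hmem with h | h
      · left; rw [sub_dotProduct] at h; linarith
      · right; rwa [sub_dotProduct] at h
    have hZsep' : ∀ z ∈ Z, ∀ z' ∈ Z, z = z' ∨ 2 * g + 1 ≤ |z - z'| := by
      intro z hz z' hz'
      rcases hZsep z hz z' hz' with h | h
      · exact Or.inl h
      · right; refine le_trans ?_ h; rw [hC]; nlinarith
    have hchild : ∀ q s, Adm Z g q s →
        ∃ F, Fam A M Λ' N (Δ + s) k' (Function.update p k' q) F := by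
      intro q s hadm
      obtain ⟨hs0, hsg⟩ := hadm.s_nonneg hg1
      refine H (Δ + s) (by linarith) N _ fun a ha => ?_
      rw [dot_update]
      by_cases ha0 : a k' = 0
      · rw [ha0, zero_mul, add_zero]
        rcases hsep a (Finset.mem_union_left _ ha) with h | h
        · exact Or.inl h
        · right; refine le_trans ?_ h; rw [hC]; nlinarith
      · set z : ℝ := (Pi.single k' 1 - (a k')⁻¹ • a) ⬝ᵥ p with hz
        have hzZ : z ∈ Z := ⟨_, Finset.mem_insert_of_mem
          (Finset.mem_image.mpr ⟨a, Finset.mem_filter.mpr ⟨ha, ha0⟩, rfl⟩), rfl⟩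
        have hzeq : a ⬝ᵥ p + a k' * (q - p k') = a k' * (q - z) := by
          rw [hz, sub_dotProduct, smul_dotProduct, single_dotProduct, smul_eq_mul]
          field_simp
          ring
        rw [hzeq]
        have hca := hcB a ha ha0
        rcases hadm with ⟨hs, hq⟩ | ⟨hs, hq⟩
        · rcases hZsep q hq z hzZ with h | h
          · left; rw [h]; simp
          · right
            rw [abs_mul]
            have h1 : c * (C * Δ) ≤ |a k'| * |q - z| :=
              mul_le_mul hca h (by positivity) (abs_nonneg _)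
            refine le_trans ?_ h1
            have h2 : C' * (D + 1) ≤ c * C := by
              have : c * (C' * (D + 1) / c) = C' * (D + 1) := by field_simp
              rw [hC]
              nlinarith
            rw [hs, hg]
            nlinarith
        · right
          rw [abs_mul]
          have h1 : c * g ≤ |a k'| * |q - z| :=
            mul_le_mul hca (hq z hzZ) (by linarith) (abs_nonneg _)
          refine le_trans ?_ h1
          rw [hs, hg]
          nlinarith
    have hT : Adm Z g (p k) g := Or.inl ⟨rfl, Pi.single k 1, Finset.mem_insert_self _ _, by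
      rw [single_dotProduct, one_mul]⟩
    obtain ⟨F, hF⟩ := chain hk' hg1 (by linarith) (by linarith) hexp1 hexp2 hZsep' hchild
      ⌈p k + N⌉₊ (p k) g hT (by have := Nat.le_ceil (p k + N); linarith)
    refine ⟨F, hF.pre, ?_, ?_, ?_, ?_⟩
    · intro l hl i j hi hij
      rcases hi.eq_or_lt with h | h
      · subst h
        rcases hij.eq_or_lt with h' | h'
        · rw [h']
        · rw [hF.pre l hl k le_rfl]
          exact (hF.anti l hl k' j le_rfl ((lt_iff_succ_le hk' j).mp h')).trans (hF.top l hl)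
      · exact hF.anti l hl i j ((lt_iff_succ_le hk' i).mp h) hij
    · intro l hl
      have h1 := hF.eta_le l hl
      have h2 : exp (p k - g) * exp Δ ≤ exp (p k - Δ) := by
        rw [← exp_add]; exact exp_le_exp.mpr (by nlinarith)
      have h3 := exp_pos (p k - g)
      nlinarith
    · obtain ⟨l, hl, h1, h2⟩ := hF.zero
      refine ⟨l, hl, fun i hi => ?_, h2⟩
      rcases hi.eq_or_lt with h | h
      · subst h; exact hF.pre l hl k le_rfl
      · exact h1 i ((lt_iff_succ_le hk' i).mp h)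
    · intro x hx ha hN hp l hl hmax
      have h := hF.good x hx ha hN hp ?_ l hl hmax
      · refine ⟨h.1, fun i => (h.2 i).trans (le_of_eq ?_)⟩
        rw [hg]; ring
      · have h1 : log (x k') ≤ log (x k) := log_le_log (hx k') (ha hkk.le)
        have h2 := (abs_le.mp (hp k le_rfl)).2
        linarith

theorem node' (A : Finset (Fin n → ℝ)) (M : ℝ) (k : Fin n) :
    ∃ (B : Finset (Fin n → ℝ)) (C Λ Δ₀ : ℝ), 0 ≤ C ∧ 1 ≤ Λ ∧ 1 ≤ Δ₀ ∧
      ∀ Δ, Δ₀ ≤ Δ → ∀ (N : ℝ) (p : Fin n → ℝ), Sep B (C * Δ) p → ∃ F, Fam A M Λ N Δ k p F :=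
  node A M (n - 1 - k.val) k (by have := k.2; omega)

end Crest.Agent.R92
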