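import Crest.Agent.R92.Node

/-!
# Barrier and entropy-like families at decreasingly sorted points (row 92)
-/

set_option autoImplicit false

namespace Crest.Agent.R92

open Real

variable {n : ℕ}

/-- the box `[exp (-r), exp r]^n` -/
def InBox (r : ℝ) (x : Fin n → ℝ) : Prop := ∀ i, exp (-r) ≤ x i ∧ x i ≤ exp r

theorem node_single (A : Finset (Fin n → ℝ)) (M : ℝ) (k : Fin n) :
    ∃ K Λ Δ₀ : ℝ, 0 ≤ K ∧ 1 ≤ Δ₀ ∧ ∀ Δ, Δ₀ ≤ Δ → ∀ N R : ℝ, K * Δ ≤ |R| →
      ∃ F, Fam A M Λ N Δ k (Pi.single k R) F := by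
  obtain ⟨B, C, Λ, Δ₀, hC, _, hΔ₀, H⟩ := node' A M k
  obtain ⟨c, hc, hcB⟩ := exists_pos_le_abs B k
  refine ⟨C / c, Λ, Δ₀, by positivity, hΔ₀, fun Δ hΔ N R hR => H Δ hΔ N _ fun a ha => ?_⟩
  rw [dotProduct_single]
  by_cases h0 : a k = 0
  · left; rw [h0, zero_mul]
  · right
    rw [abs_mul]
    have h1 : c * (C / c * Δ) ≤ |a k| * |R| :=
      mul_le_mul (hcB a ha h0) hR (by have : 0 ≤ Δ := by linarith
                                      positivity) (abs_nonneg _)
    have h2 : c * (C / c * Δ) = C * Δ := by field_simp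
    linarith

lemma headP_single (k : Fin n) (R : ℝ) (x : Fin n → ℝ) :
    headP k (Pi.single k R) x = R * x k := by
  unfold headP
  rw [Finset.sum_eq_single k]
  · simp
  · intro i _ hi
    simp [Pi.single_eq_of_ne hi]
  · simp

lemma tailS_le_of (k : Fin n) (x : Fin n → ℝ) (b : ℝ) (hb : 0 ≤ b) (h : ∀ i, k < i → x i ≤ b) :
    tailS k x ≤ n * b := by
  unfold tailS
  have h : ∑ i : Fin n, (if i ≤ k then 0 else x i) ≤ ∑ _i : Fin n, b := by
    refine Finset.sum_le_sum fun i _ => ?_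
    by_cases hi : i ≤ k
    · simp [hi, hb]
    · simp only [hi, if_false]
      exact h i (not_le.mp hi)
  simpa using h

lemma tailS_nonneg (k : Fin n) (x : Fin n → ℝ) (hx : ∀ i, 0 ≤ x i) : 0 ≤ tailS k x := by
  unfold tailS
  refine Finset.sum_nonneg fun i _ => ?_
  by_cases hi : i ≤ k
  · simp [hi]
  · simp [hi, hx i]

lemma Fam.aval_le {A : Finset (Fin n → ℝ)} {M Λ N Δ R : ℝ} {k : Fin n}
    {F : Finset ((Fin n → ℝ) × ℝ)} (hF : Fam A M Λ N Δ k (Pi.single k R) F) (hΔ : 0 ≤ Δ)
    (x : Fin n → ℝ) (hx : ∀ i, 0 ≤ x i) (l : (Fin n → ℝ) × ℝ) (hl : l ∈ F) :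
    aval l x ≤ R * (x k + tailS k x) + exp R / 2 := by
  have h1 := dot_le_head_tail k (Pi.single k R) l.1 x R hx (hF.pre l hl) (fun i hi => by
    have := hF.anti l hl k i le_rfl hi.le
    rwa [hF.pre l hl k le_rfl, Pi.single_eq_same] at this)
  have h2 := hF.eta_le l hl
  rw [Pi.single_eq_same] at h2
  have h3 : exp (R - Δ) ≤ exp R := exp_le_exp.mpr (by linarith)
  rw [headP_single] at h1
  unfold aval
  linarith

lemma Fam.exists_le_aval {A : Finset (Fin n → ℝ)} {M Λ N Δ R : ℝ} {k : Fin n}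
    {F : Finset ((Fin n → ℝ) × ℝ)} (hF : Fam A M Λ N Δ k (Pi.single k R) F) :
    ∃ l ∈ F, ∀ x : Fin n → ℝ, R * (x k + tailS k x) ≤ aval l x := by
  obtain ⟨l, hl, h1, h2⟩ := hF.zero
  refine ⟨l, hl, fun x => ?_⟩
  have h3 := dot_eq_head_tail k (Pi.single k R) l.1 x R (hF.pre l hl) (fun i hi => by
    rw [h1 i hi.le, Pi.single_eq_same])
  rw [headP_single] at h3
  unfold aval
  linarith

/-- rescaling and shifting an affine function -/
def resc (μ κ : ℝ) (l : (Fin n → ℝ) × ℝ) : (Fin n → ℝ) × ℝ := (μ • l.1, μ * l.2 + κ)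

lemma aval_resc (μ κ : ℝ) (l : (Fin n → ℝ) × ℝ) (x : Fin n → ℝ) :
    aval (resc μ κ l) x = μ * aval l x + κ := by
  unfold aval resc
  simp only [smul_dotProduct, smul_eq_mul]
  ring

lemma Compat.resc {A : Finset (Fin n → ℝ)} {M μ : ℝ} (κ : ℝ) (hμ : 0 < μ)
    {l : (Fin n → ℝ) × ℝ} {x : Fin n → ℝ} (h : Compat A M l.1 x) :
    Compat A M (resc μ κ l).1 x := by
  intro a ha hpos
  apply h a ha
  simp only [Crest.Agent.R92.resc, dotProduct_smul, smul_eq_mul] at hpos
  exact (mul_pos_iff_of_pos_left hμ).mp hpos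

lemma Fam.antitone_of_neg {A : Finset (Fin n → ℝ)} {M Λ N Δ R : ℝ} {k : Fin n}
    {F : Finset ((Fin n → ℝ) × ℝ)} (hF : Fam A M Λ N Δ k (Pi.single k R) F)
    (hR : R ≤ 0 ∨ ∀ i, k ≤ i) (l : (Fin n → ℝ) × ℝ) (hl : l ∈ F) : Antitone l.1 := by
  intro i j hij
  by_cases hi : k ≤ i
  · exact hF.anti l hl i j hi hij
  · have hR' : R ≤ 0 := hR.resolve_right (fun h => hi (h i))
    have hik : i < k := not_le.mp hi
    rw [hF.pre l hl i hik.le, Pi.single_eq_of_ne hik.ne]
    by_cases hj : k ≤ j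
    · have := hF.anti l hl k j le_rfl hj
      rw [hF.pre l hl k le_rfl, Pi.single_eq_same] at this
      linarith
    · have hjk : j < k := not_le.mp hj
      rw [hF.pre l hl j hjk.le, Pi.single_eq_of_ne hjk.ne]

theorem barrier_sorted (hn : 0 < n) (A : Finset (Fin n → ℝ)) (M r : ℝ) :
    ∃ F : Finset ((Fin n → ℝ) × ℝ), (∀ l ∈ F, Antitone l.1) ∧
      (∀ x, InBox r x → ∀ l ∈ F, aval l x ≤ 0) ∧
      ∃ ρ : ℝ, (∀ x, Antitone x → (∀ l ∈ F, aval l x ≤ 1 / 2) → InBox ρ x) ∧
        (∀ x, Antitone x → (∀ l ∈ F, aval l x ≤ 1 / 2) → ∀ l ∈ F,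
          (∀ l' ∈ F, aval l' x ≤ aval l x) → 0 ≤ aval l x → Compat A M l.1 x) := by
  classical
  choose K Λ Δ₀ hK hΔ₀ H using fun k : Fin n => node_single A M k
  set K' : ℝ := ∑ k, K k with hK'
  set Δ' : ℝ := ∑ k, Δ₀ k with hΔ'
  have hKK : ∀ k, K k ≤ K' := fun k =>
    Finset.single_le_sum (f := K) (fun i _ => hK i) (Finset.mem_univ k)
  have hΔΔ : ∀ k, Δ₀ k ≤ Δ' := fun k =>
    Finset.single_le_sum (f := Δ₀) (fun i _ => by linarith [hΔ₀ i]) (Finset.mem_univ k)
  let z : Fin n := ⟨0, hn⟩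
  let e : Fin n := ⟨n - 1, by omega⟩
  have hz : ∀ i, z ≤ i := fun i => by rw [Fin.le_def]; exact Nat.zero_le _
  have he : ∀ i, i ≤ e := fun i => by rw [Fin.le_def]; have := i.2; simp only [e]; omega
  have hK'0 : 0 ≤ K' := (hK z).trans (hKK z)
  have hΔ'1 : 1 ≤ Δ' := (hΔ₀ z).trans (hΔΔ z)
  have hn0 : (0 : ℝ) ≤ n := Nat.cast_nonneg n
  set E : ℝ := 2 * ((n : ℝ) + 1) with hE
  have hE2 : 2 ≤ E := by linarith
  have hexpE : E ≤ exp E := by have := add_one_le_exp E; linarith
  set U : ℝ := (K' + 1) * (Δ' + E) + |r| + E with hU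
  have hr := le_abs_self r
  have hr0 := abs_nonneg r
  have hU1 : K' * (Δ' + E) ≤ U := by nlinarith
  have hU2 : Δ' + E ≤ U := by nlinarith
  have hU3 : r + E ≤ U := by nlinarith
  have hU0 : 1 ≤ U := by linarith
  let ρ : ℕ → ℝ := fun j => U * (2 * K' + 1) ^ j
  have hρmono : Monotone ρ := fun i j hij =>
    mul_le_mul_of_nonneg_left (pow_le_pow_right₀ (by linarith) hij) (by linarith)
  have hρ0 : ρ 0 = U := by simp [ρ]
  have hρU : ∀ j, U ≤ ρ j := fun j => hρ0 ▸ hρmono (Nat.zero_le j)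
  have hρs : ∀ j, ρ (j + 1) = ρ j * (2 * K' + 1) := fun j => by simp only [ρ]; ring
  set N : ℝ := ρ n + E with hN
  have Hk : ∀ k : Fin n, ∃ F, Fam A M (Λ k) N (2 * ρ k) k (Pi.single k (-ρ (k + 1))) F := by
    intro k
    have h1 := hρU k
    refine H k _ (by linarith [hΔΔ k]) N _ ?_
    rw [abs_neg, abs_of_nonneg (by linarith [hρU (k + 1)]), hρs]
    have := hKK k
    have := hK k
    nlinarith
  choose G hG using Hk
  obtain ⟨G0, hG0⟩ : ∃ F, Fam A M (Λ z) N (Δ' + E) z (Pi.single z U) F := by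
    refine H z _ (by linarith [hΔΔ z]) N _ ?_
    rw [abs_of_nonneg (by linarith)]
    have := hKK z
    have := hK z
    nlinarith
  let μ : Fin n → ℝ := fun k => exp (ρ (k + 1)) / ρ (k + 1)
  have hρpos : ∀ j, 0 < ρ j := fun j => by linarith [hρU j]
  have hμ : ∀ k, 0 < μ k := fun k => div_pos (exp_pos _) (hρpos _)
  set μ0 : ℝ := exp (-U) / U with hμ0
  have hμ0' : 0 < μ0 := div_pos (exp_pos _) (by linarith)
  let F : Finset ((Fin n → ℝ) × ℝ) := G0.image (resc μ0 (-1)) ∪
    Finset.univ.biUnion fun k => (G k).image (resc (μ k) 1)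
  have memF : ∀ l, l ∈ F ↔ (∃ l0 ∈ G0, l = resc μ0 (-1) l0) ∨
      ∃ k, ∃ l0 ∈ G k, l = resc (μ k) 1 l0 := by
    intro l
    simp only [F, Finset.mem_union, Finset.mem_image, Finset.mem_biUnion, Finset.mem_univ,
      true_and, eq_comm]
  -- upper estimates of the values
  have upk : ∀ k, ∀ l0 ∈ G k, ∀ x : Fin n → ℝ, (∀ i, 0 ≤ x i) →
      aval (resc (μ k) 1 l0) x ≤ 3 / 2 - exp (ρ (k + 1)) * (x k + tailS k x) := by
    intro k l0 h0 x hx
    have h1 := (hG k).aval_le (by linarith [hρpos k]) x hx l0 h0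
    rw [aval_resc]
    have h2 := mul_le_mul_of_nonneg_left h1 (hμ k).le
    have h3 : μ k * (-ρ (k + 1) * (x k + tailS k x) + exp (-ρ (k + 1)) / 2)
        = -(exp (ρ (k + 1)) * (x k + tailS k x)) + 1 / (2 * ρ (k + 1)) := by
      have := hρpos (k + 1)
      simp only [μ]
      rw [exp_neg]
      field_simp
    have h4 : 1 / (2 * ρ (k + 1)) ≤ 1 / 2 :=
      one_div_le_one_div_of_le (by norm_num) (by linarith [hρU (k + 1)])
    linarith
  have up0 : ∀ l0 ∈ G0, ∀ x : Fin n → ℝ, (∀ i, 0 ≤ x i) →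
      aval (resc μ0 (-1) l0) x ≤ exp (-U) * (x z + tailS z x) - 1 / 2 := by
    intro l0 h0 x hx
    have h1 := hG0.aval_le (by linarith) x hx l0 h0
    rw [aval_resc]
    have h2 := mul_le_mul_of_nonneg_left h1 hμ0'.le
    have h3 : μ0 * (U * (x z + tailS z x) + exp U / 2)
        = exp (-U) * (x z + tailS z x) + 1 / (2 * U) := by
      rw [hμ0, exp_neg]
      have : U ≠ 0 := by linarith
      field_simp
    have h4 : 1 / (2 * U) ≤ 1 / 2 := one_div_le_one_div_of_le (by norm_num) (by linarith)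
    linarith
  -- consequences of all values being at most one half
  have lowk : ∀ x : Fin n → ℝ, (∀ l ∈ F, aval l x ≤ 1 / 2) → ∀ k : Fin n,
      1 / 2 ≤ exp (ρ (k + 1)) * (x k + tailS k x) := by
    intro x hx k
    obtain ⟨l0, h0, h1⟩ := (hG k).exists_le_aval
    have h2 := hx _ ((memF _).mpr (Or.inr ⟨k, l0, h0, rfl⟩))
    rw [aval_resc] at h2
    have h3 := mul_le_mul_of_nonneg_left (h1 x) (hμ k).le
    have h4 : μ k * (-ρ (k + 1) * (x k + tailS k x)) = -(exp (ρ (k + 1)) * (x k + tailS k x)) := by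
      have := hρpos (k + 1)
      simp only [μ]
      field_simp
    linarith
  have low0 : ∀ x : Fin n → ℝ, (∀ l ∈ F, aval l x ≤ 1 / 2) →
      exp (-U) * (x z + tailS z x) ≤ 3 / 2 := by
    intro x hx
    obtain ⟨l0, h0, h1⟩ := hG0.exists_le_aval
    have h2 := hx _ ((memF _).mpr (Or.inl ⟨l0, h0, rfl⟩))
    rw [aval_resc] at h2
    have h3 := mul_le_mul_of_nonneg_left (h1 x) hμ0'.le
    have h4 : μ0 * (U * (x z + tailS z x)) = exp (-U) * (x z + tailS z x) := by
      rw [hμ0]
      have : U ≠ 0 := by linarith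
      field_simp
    linarith
  have hpos : ∀ x : Fin n → ℝ, Antitone x → (∀ l ∈ F, aval l x ≤ 1 / 2) → ∀ i, 0 < x i := by
    intro x ha hx i
    have h1 := lowk x hx e
    have h2 : tailS e x = 0 := by
      unfold tailS
      exact Finset.sum_eq_zero fun j _ => by simp [he j]
    rw [h2, add_zero] at h1
    have h3 : 0 < x e := by
      by_contra hcon
      push Not at hcon
      have := exp_pos (ρ (e + 1))
      nlinarith
    exact h3.trans_le (ha (he i))
  have hT : ∀ x : Fin n → ℝ, Antitone x → (∀ i, 0 < x i) → ∀ k,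
      x k ≤ x k + tailS k x ∧ 2 * (x k + tailS k x) ≤ exp E * x k := by
    intro x ha hx k
    have h1 := tailS_nonneg k x fun i => (hx i).le
    have h2 := tailS_le_of k x (x k) (hx k).le fun i hi => ha hi.le
    have h3 := hx k
    constructor
    · linarith
    · nlinarith
  have hloglow : ∀ x : Fin n → ℝ, Antitone x → (∀ l ∈ F, aval l x ≤ 1 / 2) → ∀ k : Fin n,
      -ρ (k + 1) - E ≤ log (x k) := by
    intro x ha hx k
    have hp := hpos x ha hx
    rw [le_log_iff_exp_le (hp k)]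
    have h1 := lowk x hx k
    have h2 := (hT x ha hp k).2
    have h3 : exp (-ρ (k + 1) - E) * (exp (ρ (k + 1)) * exp E) = 1 := by
      rw [← exp_add, ← exp_add]; simp
    have h4 := exp_pos (ρ (k + 1))
    have h5 := exp_pos (-ρ (k + 1) - E)
    have h6 : 1 ≤ exp (ρ (k + 1)) * exp E * x k := by nlinarith
    have h7 := mul_le_mul_of_nonneg_left h6 h5.le
    rw [← mul_assoc, h3] at h7
    linarith
  have hlogup : ∀ x : Fin n → ℝ, Antitone x → (∀ l ∈ F, aval l x ≤ 1 / 2) → ∀ k : Fin n,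
      log (x k) ≤ U + 1 := by
    intro x ha hx k
    have hp := hpos x ha hx
    rw [log_le_iff_le_exp (hp k)]
    have h1 := low0 x hx
    have h2 := (hT x ha hp z).1
    have h3 : x k ≤ x z := ha (hz k)
    have h4 : (2 : ℝ) ≤ exp 1 := by have := add_one_le_exp (1 : ℝ); linarith
    have h5 := exp_pos U
    have h6 : exp U * exp (-U) = 1 := by rw [← exp_add]; simp
    have h7 := mul_le_mul_of_nonneg_left h1 h5.le
    rw [← mul_assoc, h6] at h7
    rw [exp_add]
    nlinarith
  have hρn : ∀ k : Fin n, ρ (k + 1) ≤ ρ n := fun k => hρmono (by have := k.2; omega)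
  refine ⟨F, ?_, ?_, N, ?_, ?_⟩
  · intro l hl
    rcases (memF l).mp hl with ⟨l0, h0, rfl⟩ | ⟨k, l0, h0, rfl⟩
    · intro i j hij
      exact mul_le_mul_of_nonneg_left (hG0.antitone_of_neg (Or.inr hz) l0 h0 hij) hμ0'.le
    · intro i j hij
      exact mul_le_mul_of_nonneg_left
        ((hG k).antitone_of_neg (Or.inl (by linarith [hρpos (k + 1)])) l0 h0 hij) (hμ k).le
  · intro x hx l hl
    have hx0 : ∀ i, 0 ≤ x i := fun i => (exp_pos _).le.trans (hx i).1
    rcases (memF l).mp hl with ⟨l0, h0, rfl⟩ | ⟨k, l0, h0, rfl⟩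
    · have h1 := up0 l0 h0 x hx0
      have h2 := tailS_le_of z x (exp r) (exp_pos _).le fun i _ => (hx i).2
      have h3 := (hx z).2
      have h4 : exp (-U) * (exp r * exp E) ≤ 1 := by
        rw [← exp_add, ← exp_add, exp_le_one_iff]; linarith
      have h5 := exp_pos (-U)
      have h6 := exp_pos r
      have h7 : 2 * (x z + tailS z x) ≤ exp r * exp E := by nlinarith
      nlinarith
    · have h1 := upk k l0 h0 x hx0
      have h2 := tailS_nonneg k x hx0
      have h3 := (hx k).1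
      have h4 : exp 1 ≤ exp (ρ (k + 1)) * exp (-r) := by
        rw [← exp_add, exp_le_exp]; linarith [hρU (k + 1)]
      have h5 : (2 : ℝ) ≤ exp 1 := by have := add_one_le_exp (1 : ℝ); linarith
      have h6 := exp_pos (ρ (k + 1))
      nlinarith
  · intro x ha hx i
    have hp := hpos x ha hx
    have h1 := hloglow x ha hx i
    have h2 := hlogup x ha hx i
    have h3 := hρn i
    have h4 := hρU n
    exact ⟨(le_log_iff_exp_le (hp i)).mp (by linarith), (log_le_iff_le_exp (hp i)).mp (by linarith)⟩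
  · intro x ha hx l hl hmax hval
    have hp := hpos x ha hx
    have hx0 : ∀ i, 0 ≤ x i := fun i => (hp i).le
    have hfloor : ∀ i, -N ≤ log (x i) := fun i => by
      have h1 := hloglow x ha hx i
      have h3 := hρn i
      linarith
    rcases (memF l).mp hl with ⟨l0, h0, rfl⟩ | ⟨k, l0, h0, rfl⟩
    · refine Compat.resc _ hμ0' (hG0.good x hp ha hfloor (fun i hi => ?_) l0 h0 fun l' hl' => ?_).1
      · rw [le_antisymm hi (hz i), Pi.single_eq_same, abs_le]
        have h1 := hlogup x ha hx z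
        have h2 : U - E ≤ log (x z) := by
          rw [le_log_iff_exp_le (hp z)]
          have h3 := up0 l0 h0 x hx0
          have h4 := (hT x ha hp z).2
          have h5 : exp (U - E) * (exp (-U) * exp E) = 1 := by
            rw [← exp_add, ← exp_add]; simp
          have h6 := exp_pos (-U)
          have h7 := exp_pos (U - E)
          have h8 : 1 ≤ exp (-U) * exp E * x z := by nlinarith
          have h9 := mul_le_mul_of_nonneg_left h8 h7.le
          rw [← mul_assoc, h5] at h9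
          linarith
        constructor <;> linarith
      · have := hmax _ ((memF _).mpr (Or.inl ⟨l', hl', rfl⟩))
        rw [aval_resc, aval_resc] at this
        exact le_of_mul_le_mul_left (by linarith) hμ0'
    · refine Compat.resc _ (hμ k)
        ((hG k).good x hp ha hfloor (fun i hi => ?_) l0 h0 fun l' hl' => ?_).1
      · have hk := hρU k
        rcases hi.eq_or_lt with h | h
        · subst h
          rw [Pi.single_eq_same, abs_le]
          have h1 := hloglow x ha hx i
          have h2 : log (x i) ≤ -ρ (i + 1) + 1 := by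
            rw [log_le_iff_le_exp (hp i)]
            have h3 := upk i l0 h0 x hx0
            have h4 := (hT x ha hp i).1
            have h5 : exp (-ρ (i + 1)) * exp (ρ (i + 1)) = 1 := by rw [← exp_add]; simp
            have h6 := exp_pos (ρ (i + 1))
            have h7 := exp_pos (-ρ (i + 1))
            have h8 : exp (ρ (i + 1)) * x i ≤ 3 / 2 := by nlinarith
            have h9 := mul_le_mul_of_nonneg_left h8 h7.le
            rw [← mul_assoc, h5] at h9
            have h10 : (2 : ℝ) ≤ exp 1 := by have := add_one_le_exp (1 : ℝ); linarith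
            rw [exp_add]
            nlinarith
          constructor <;> linarith
        · rw [Pi.single_eq_of_ne h.ne, sub_zero, abs_le]
          have h1 := hloglow x ha hx i
          have h2 := hlogup x ha hx i
          have h3 : ρ (i + 1) ≤ ρ k := hρmono (by rw [Fin.lt_def] at h; omega)
          constructor <;> linarith
      · have := hmax _ ((memF _).mpr (Or.inr ⟨k, l', hl', rfl⟩))
        rw [aval_resc, aval_resc] at this
        exact le_of_mul_le_mul_left (by linarith) (hμ k)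

theorem entropy_sorted (A : Finset (Fin n → ℝ)) (M : ℝ) :
    ∃ C : ℝ, ∀ ρ : ℝ, ∃ F : Finset ((Fin n → ℝ) × ℝ), F.Nonempty ∧ (∀ l ∈ F, Antitone l.1) ∧
      ∀ x, Antitone x → InBox ρ x → ∀ l ∈ F, (∀ l' ∈ F, aval l' x ≤ aval l x) →
        Compat A M l.1 x ∧ ∀ i, |l.1 i - log (x i)| ≤ C := by
  classical
  obtain ⟨K, Λ, Δ₀, hK, hΔ₀, H⟩ :=
    node_single (n := n + 1) (A.image fun a => (Fin.cons 0 a : Fin (n + 1) → ℝ)) M 0
  refine ⟨Λ * Δ₀, fun ρ => ?_⟩
  set U : ℝ := K * Δ₀ + |ρ| with hU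
  have h0 : 0 ≤ K * Δ₀ := by positivity
  have h1 := le_abs_self ρ
  have h2 := abs_nonneg ρ
  obtain ⟨G, hG⟩ := H Δ₀ le_rfl U U (by rw [abs_of_nonneg (by linarith)]; linarith)
  refine ⟨G.image fun l => (Fin.tail l.1, l.2), ?_, ?_, ?_⟩
  · obtain ⟨l, hl, _⟩ := hG.zero
    exact ⟨_, Finset.mem_image_of_mem _ hl⟩
  · intro l hl
    obtain ⟨l0, h0, rfl⟩ := Finset.mem_image.mp hl
    intro i j hij
    exact hG.anti l0 h0 i.succ j.succ (Fin.zero_le _) (Fin.succ_le_succ_iff.mpr hij)
  · intro x ha hx l hl hmax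
    obtain ⟨l0, h0, rfl⟩ := Finset.mem_image.mp hl
    have hxp : ∀ i, 0 < x i := fun i => (exp_pos _).trans_le (hx i).1
    let y : Fin (n + 1) → ℝ := Fin.cons (exp U) x
    have hval : ∀ l ∈ G, aval l y = U * exp U + aval (Fin.tail l.1, l.2) x := by
      intro l hl
      have := hG.pre l hl 0 le_rfl
      rw [Pi.single_eq_same] at this
      simp only [aval, dotProduct, Fin.sum_univ_succ, y, Fin.cons_zero, Fin.cons_succ, this,
        Fin.tail]
      ring
    have hy := hG.good y (fun i => ?_) ?_ (fun i => ?_) (fun i hi => ?_) l0 h0 (fun l' hl' => ?_)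
    · refine ⟨fun a ha hpos => ?_, fun i => ?_⟩
      · have h3 := hy.1 (Fin.cons 0 a) (Finset.mem_image_of_mem _ ha) (by
          simpa [dotProduct, Fin.sum_univ_succ, Fin.tail] using hpos)
        simpa [dotProduct, Fin.sum_univ_succ, y] using h3
      · simpa [y, Fin.tail] using hy.2 i.succ
    · refine Fin.cases ?_ (fun j => ?_) i
      · simp [y, exp_pos]
      · simp [y, hxp j]
    · intro i j hij
      revert hij
      refine Fin.cases ?_ (fun i' => ?_) i <;> refine Fin.cases ?_ (fun j' => ?_) j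
      · intro _; exact le_rfl
      · intro _
        simp only [y, Fin.cons_zero, Fin.cons_succ]
        exact (hx j').2.trans (exp_le_exp.mpr (by linarith))
      · intro h; exact absurd h (by simp)
      · intro h
        simp only [y, Fin.cons_succ]
        exact ha (Fin.succ_le_succ_iff.mp h)
    · refine Fin.cases ?_ (fun j => ?_) i
      · simp only [y, Fin.cons_zero, log_exp]; linarith
      · simp only [y, Fin.cons_succ]
        have := (le_log_iff_exp_le (hxp j)).mpr (hx j).1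
        linarith
    · rw [Fin.le_zero_iff.mp hi]
      simp only [y, Fin.cons_zero, log_exp, Pi.single_eq_same, sub_self, abs_zero]
      linarith
    · rw [hval l' hl', hval l0 h0]
      have := hmax _ (Finset.mem_image_of_mem _ hl')
      linarith

end Crest.Agent.R92
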