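import Crest.Agent.R92.Sorted

/-!
# Symmetrisation under permutations of the coordinates (row 92)
-/

set_option autoImplicit false

namespace Crest.Agent.R92

open Real

variable {n : ℕ}

open Classical in
/-- all coordinate permutations of a family of affine functions -/
noncomputable def symF (F : Finset ((Fin n → ℝ) × ℝ)) : Finset ((Fin n → ℝ) × ℝ) :=
  (F ×ˢ (Finset.univ : Finset (Equiv.Perm (Fin n)))).image fun lp => (lp.1.1 ∘ lp.2, lp.1.2)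

open Classical in
/-- all coordinate permutations of a family of vectors -/
noncomputable def symA (A : Finset (Fin n → ℝ)) : Finset (Fin n → ℝ) :=
  (A ×ˢ (Finset.univ : Finset (Equiv.Perm (Fin n)))).image fun ap => ap.1 ∘ ap.2

lemma mem_symF {F : Finset ((Fin n → ℝ) × ℝ)} {l : (Fin n → ℝ) × ℝ} :
    l ∈ symF F ↔ ∃ l0 ∈ F, ∃ τ : Equiv.Perm (Fin n), l = (l0.1 ∘ τ, l0.2) := by
  unfold symF
  simp only [Finset.mem_image, Finset.mem_product, Finset.mem_univ, and_true, Prod.exists]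
  constructor
  · rintro ⟨a, b, τ, h, rfl⟩
    exact ⟨a, b, h, τ, rfl⟩
  · rintro ⟨a, b, h, τ, rfl⟩
    exact ⟨a, b, τ, h, rfl⟩

lemma mem_symA {A : Finset (Fin n → ℝ)} {a : Fin n → ℝ} (ha : a ∈ A) (τ : Equiv.Perm (Fin n)) :
    a ∘ τ ∈ symA A := by
  unfold symA
  exact Finset.mem_image.mpr ⟨(a, τ), Finset.mem_product.mpr ⟨ha, Finset.mem_univ _⟩, rfl⟩

lemma aval_comp (l : (Fin n → ℝ) × ℝ) (x : Fin n → ℝ) (σ : Equiv.Perm (Fin n)) :
    aval l (x ∘ σ) = aval (l.1 ∘ σ.symm, l.2) x := by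
  unfold aval
  simp only [comp_equiv_symm_dotProduct]

lemma dot_swap (w x : Fin n → ℝ) (i j : Fin n) (hij : i ≠ j) :
    (w ∘ Equiv.swap i j) ⬝ᵥ x - w ⬝ᵥ x = (w j - w i) * (x i - x j) := by
  unfold dotProduct
  rw [← Finset.sum_sub_distrib, Finset.sum_eq_add_of_mem i j (Finset.mem_univ _)
    (Finset.mem_univ _) hij]
  · simp only [Function.comp, Equiv.swap_apply_left, Equiv.swap_apply_right]
    ring
  · intro c _ hc
    simp [Function.comp, Equiv.swap_apply_of_ne_of_ne hc.1 hc.2]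

lemma exists_sort_pair (x w : Fin n → ℝ) (h : ∀ i j, x j < x i → w j ≤ w i) :
    ∃ σ : Equiv.Perm (Fin n), Antitone (x ∘ σ) ∧ Antitone (w ∘ σ) := by
  let f : Fin n → ℝ ×ₗ ℝ := fun i => toLex (-(x i), -(w i))
  have hm := Tuple.monotone_sort f
  refine ⟨Tuple.sort f, fun a b hab => ?_, fun a b hab => ?_⟩
  · have := hm hab
    simp only [Function.comp, f, Prod.Lex.toLex_le_toLex] at this ⊢
    rcases this with h1 | h1
    · linarith
    · linarith [h1.1]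
  · have := hm hab
    simp only [Function.comp, f, Prod.Lex.toLex_le_toLex] at this ⊢
    rcases this with h1 | h1
    · exact h _ _ (by linarith)
    · linarith [h1.2]

lemma sym_active {F : Finset ((Fin n → ℝ) × ℝ)} (hF : ∀ l ∈ F, Antitone l.1) (x : Fin n → ℝ)
    (l : (Fin n → ℝ) × ℝ) (hl : l ∈ symF F) (hmax : ∀ l' ∈ symF F, aval l' x ≤ aval l x) :
    ∃ σ : Equiv.Perm (Fin n), Antitone (x ∘ σ) ∧ (l.1 ∘ σ, l.2) ∈ F := by
  obtain ⟨l0, h0, τ, rfl⟩ := mem_symF.mp hl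
  have hmono : ∀ i j, x j < x i → (l0.1 ∘ τ) j ≤ (l0.1 ∘ τ) i := by
    intro i j hij
    have hne : i ≠ j := fun h => by rw [h] at hij; exact lt_irrefl _ hij
    have h1 := hmax (l0.1 ∘ (τ * Equiv.swap i j : Equiv.Perm (Fin n)), l0.2)
      (mem_symF.mpr ⟨l0, h0, _, rfl⟩)
    have h2 := dot_swap (l0.1 ∘ τ) x i j hne
    have h3 : (l0.1 ∘ (τ * Equiv.swap i j : Equiv.Perm (Fin n))) = (l0.1 ∘ τ) ∘ Equiv.swap i j := by
      funext a; simp
    simp only [aval, h3] at h1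
    by_contra hcon
    push Not at hcon
    nlinarith
  obtain ⟨σ, h1, h2⟩ := exists_sort_pair x (l0.1 ∘ τ) hmono
  refine ⟨σ, h1, ?_⟩
  have h3 : l0.1 ∘ (τ * σ : Equiv.Perm (Fin n)) = l0.1 ∘ (1 : Equiv.Perm (Fin n)) :=
    Tuple.unique_antitone h2 (hF l0 h0)
  have h4 : (l0.1 ∘ τ) ∘ σ = l0.1 := h3
  simp only [h4]
  exact h0

lemma Compat.of_sym {A : Finset (Fin n → ℝ)} {M : ℝ} {w x : Fin n → ℝ} (σ : Equiv.Perm (Fin n))
    (h : Compat (symA A) M (w ∘ σ) (x ∘ σ)) : Compat A M w x := by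
  intro a ha hpos
  have h1 := h (a ∘ σ) (mem_symA ha σ) (by rwa [comp_equiv_dotProduct_comp_equiv])
  have h2 : (fun i => log ((x ∘ σ) i)) = (fun i => log (x i)) ∘ σ := rfl
  rwa [h2, comp_equiv_dotProduct_comp_equiv] at h1

lemma aval_comp_both (l : (Fin n → ℝ) × ℝ) (x : Fin n → ℝ) (σ : Equiv.Perm (Fin n)) :
    aval (l.1 ∘ σ, l.2) (x ∘ σ) = aval l x := by
  unfold aval
  simp only [comp_equiv_dotProduct_comp_equiv]

theorem barrier (hn : 0 < n) (A : Finset (Fin n → ℝ)) (M r : ℝ) :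
    ∃ F : Finset ((Fin n → ℝ) × ℝ), (∀ x, InBox r x → ∀ l ∈ F, aval l x ≤ 0) ∧
      ∃ ρ : ℝ, (∀ x, (∀ l ∈ F, aval l x ≤ 1 / 2) → InBox ρ x) ∧
        (∀ x, (∀ l ∈ F, aval l x ≤ 1 / 2) → ∀ l ∈ F,
          (∀ l' ∈ F, aval l' x ≤ aval l x) → 0 ≤ aval l x → Compat A M l.1 x) := by
  obtain ⟨F, hF, h1, ρ, h2, h3⟩ := barrier_sorted hn (symA A) M r
  have key : ∀ (x : Fin n → ℝ) (b : ℝ) (σ : Equiv.Perm (Fin n)), (∀ l ∈ symF F, aval l x ≤ b) →
      ∀ l ∈ F, aval l (x ∘ σ) ≤ b := by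
    intro x b σ hx l hl
    rw [aval_comp]
    exact hx _ (mem_symF.mpr ⟨l, hl, _, rfl⟩)
  refine ⟨symF F, ?_, ρ, ?_, ?_⟩
  · intro x hx l hl
    obtain ⟨l0, h0, τ, rfl⟩ := mem_symF.mp hl
    have := h1 (x ∘ τ.symm) (fun i => hx _) l0 h0
    rwa [aval_comp, Equiv.symm_symm] at this
  · intro x hx i
    obtain ⟨σ, hσ, _⟩ := exists_sort_pair x x fun i j h => h.le
    have := h2 (x ∘ σ) hσ (key x _ σ hx) (σ.symm i)
    simpa using this
  · intro x hx l hl hmax hval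
    obtain ⟨σ, hσ, hmem⟩ := sym_active hF x l hl hmax
    refine Compat.of_sym σ (h3 (x ∘ σ) hσ (key x _ σ hx) (l.1 ∘ σ, l.2) hmem ?_ ?_)
    · rw [aval_comp_both]
      exact key x _ σ hmax
    · rwa [aval_comp_both]

theorem entropy (A : Finset (Fin n → ℝ)) (M : ℝ) :
    ∃ C : ℝ, ∀ ρ : ℝ, ∃ F : Finset ((Fin n → ℝ) × ℝ), F.Nonempty ∧
      ∀ x, InBox ρ x → ∀ l ∈ F, (∀ l' ∈ F, aval l' x ≤ aval l x) →
        Compat A M l.1 x ∧ ∀ i, |l.1 i - log (x i)| ≤ C := by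
  obtain ⟨C, H⟩ := entropy_sorted (symA A) M
  refine ⟨C, fun ρ => ?_⟩
  obtain ⟨F, hne, hF, h⟩ := H ρ
  refine ⟨symF F, ?_, ?_⟩
  · obtain ⟨l, hl⟩ := hne
    exact ⟨_, mem_symF.mpr ⟨l, hl, 1, rfl⟩⟩
  · intro x hx l hl hmax
    obtain ⟨σ, hσ, hmem⟩ := sym_active hF x l hl hmax
    have h1 := h (x ∘ σ) hσ (fun i => hx _) (l.1 ∘ σ, l.2) hmem (fun l' hl' => by
      rw [aval_comp_both, aval_comp]
      exact hmax _ (mem_symF.mpr ⟨l', hl', _, rfl⟩))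
    refine ⟨Compat.of_sym σ h1.1, fun i => ?_⟩
    have := h1.2 (σ.symm i)
    simpa using this

end Crest.Agent.R92
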